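import Mathlib

open MeasureTheory ProbabilityTheory Set Filter Topology

namespace Vale.Agent.P262.Ehr

/-- Quasi-concave functions on the line. -/
def QC (f : ℝ → ℝ) : Prop := ∀ x y z, x ≤ y → y ≤ z → min (f x) (f z) ≤ f y

lemma QC.ordConnected {f : ℝ → ℝ} (h : QC f) (c : ℝ) : OrdConnected {x | c < f x} :=
  ⟨fun x hx z hz y hy => lt_of_lt_of_le (lt_min hx hz) (h x y z hy.1 hy.2)⟩

lemma QC.measurable {f : ℝ → ℝ} (h : QC f) : Measurable f :=
  measurable_of_Ioi fun c => (h.ordConnected c).measurableSet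

/-- The supremum of `f` over the window `[x - r, x + r]`. -/
noncomputable def win (r : ℝ) (f : ℝ → ℝ) (x : ℝ) : ℝ := sSup (f '' Icc (x - r) (x + r))

section
variable {r : ℝ} {f : ℝ → ℝ}

lemma bddAbove_img (hf : ∀ x, f x ≤ 1) (s : Set ℝ) : BddAbove (f '' s) :=
  ⟨1, by rintro _ ⟨y, -, rfl⟩; exact hf y⟩

lemma le_win (hf : ∀ x, f x ≤ 1) {x y : ℝ} (h : |y - x| ≤ r) : f y ≤ win r f x := by
  refine le_csSup (bddAbove_img hf _) ⟨y, ?_, rfl⟩
  rw [abs_le] at h
  constructor <;> linarith [h.1, h.2]

lemma win_le (hr : 0 ≤ r) {x b : ℝ} (h : ∀ y, |y - x| ≤ r → f y ≤ b) : win r f x ≤ b := by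
  refine csSup_le (Nonempty.image f (nonempty_Icc.mpr (by linarith))) ?_
  rintro _ ⟨y, hy, rfl⟩
  refine h y ?_
  rw [abs_le]
  constructor <;> linarith [hy.1, hy.2]

lemma lt_win_iff (hr : 0 ≤ r) (hf : ∀ x, f x ≤ 1) {x c : ℝ} :
    c < win r f x ↔ ∃ y, |y - x| ≤ r ∧ c < f y := by
  constructor
  · intro h
    obtain ⟨_, ⟨y, hy, rfl⟩, h2⟩ := exists_lt_of_lt_csSup
      (Nonempty.image f (nonempty_Icc.mpr (by linarith : x - r ≤ x + r))) h
    refine ⟨y, ?_, h2⟩
    rw [abs_le]
    constructor <;> linarith [hy.1, hy.2]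
  · rintro ⟨y, h1, h2⟩
    exact h2.trans_le (le_win hf h1)

lemma QC.win (hr : 0 ≤ r) (hf : ∀ x, f x ≤ 1) (h : QC f) : QC (Vale.Agent.P262.Ehr.win r f) := by
  intro x y z hxy hyz
  by_contra hcon
  rw [not_le, lt_min_iff, lt_win_iff hr hf, lt_win_iff hr hf] at hcon
  obtain ⟨⟨a, ha, ha2⟩, b, hb, hb2⟩ := hcon
  rw [abs_le] at ha hb
  have key : ∀ w, |w - y| ≤ r → f w ≤ Ehr.win r f y := fun w hw => le_win hf hw
  rcases le_total a y with h1 | h1
  · rcases le_total y b with h2 | h2
    · have h3 := h a y b h1 h2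
      have h4 := key y (by simpa using hr)
      rcases min_le_iff.mp h3 with h5 | h5 <;> linarith
    · have h4 := key b (by rw [abs_le]; constructor <;> linarith [hb.1])
      linarith
  · have h4 := key a (by rw [abs_le]; constructor <;> linarith [ha.2])
    linarith

end

/-- The `r`-neighbourhood of a convex subset of the line has at most `2r` more mass. -/
lemma nbhd_measure {S : Set ℝ} (hS : OrdConnected S) {r : ℝ} (hr : 0 ≤ r) :
    gaussianReal 0 1 {x | ∃ y, |y - x| ≤ r ∧ y ∈ S} ≤ gaussianReal 0 1 S + ENNReal.ofReal (2 * r) := by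
  have hle : (gaussianReal 0 1 : Measure ℝ) ≤ volume := by
    rw [gaussianReal_of_var_ne_zero _ one_ne_zero]
    calc (volume.withDensity (gaussianPDF 0 1)) ≤ volume.withDensity 1 := by
          refine withDensity_mono (Filter.Eventually.of_forall fun x => ?_)
          simp only [gaussianPDF, Pi.one_apply]
          rw [← ENNReal.ofReal_one]
          refine ENNReal.ofReal_le_ofReal ?_
          rw [gaussianPDFReal]
          have h1 : (Real.sqrt (2 * Real.pi * ((1 : NNReal) : ℝ)))⁻¹ ≤ 1 := by
            refine inv_le_one_of_one_le₀ ?_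
            rw [Real.one_le_sqrt]
            simp only [NNReal.coe_one, mul_one]
            linarith [Real.pi_gt_three]
          have h2 : Real.exp (-(x - 0) ^ 2 / (2 * ((1 : NNReal) : ℝ))) ≤ 1 := by
            rw [Real.exp_le_one_iff]
            have : 0 ≤ (x - 0) ^ 2 := sq_nonneg _
            simp only [NNReal.coe_one]
            linarith
          calc _ ≤ (1 : ℝ) * 1 := mul_le_mul h1 h2 (Real.exp_nonneg _) zero_le_one
            _ = 1 := one_mul 1
      _ = volume := withDensity_one
  have hsub : {x | ∃ y, |y - x| ≤ r ∧ y ∈ S} ⊆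
      S ∪ (Icc (sInf S - r) (sInf S) ∪ Icc (sSup S) (sSup S + r)) := by
    rintro x ⟨y, hy, hyS⟩
    by_cases hx : x ∈ S
    · exact Or.inl hx
    · right
      rw [abs_le] at hy
      rcases lt_trichotomy x y with h | h | h
      · left
        have hlb : ∀ s ∈ S, x ≤ s := by
          intro s hs
          by_contra hcon
          exact hx (hS.out hs hyS ⟨(not_le.mp hcon).le, h.le⟩)
        have h1 : x ≤ sInf S := le_csInf ⟨y, hyS⟩ hlb
        have h2 : sInf S ≤ y := csInf_le ⟨x, hlb⟩ hyS
        exact ⟨by linarith, h1⟩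
      · rw [h] at hx
        exact absurd hyS hx
      · right
        have hub : ∀ s ∈ S, s ≤ x := by
          intro s hs
          by_contra hcon
          exact hx (hS.out hyS hs ⟨h.le, (not_le.mp hcon).le⟩)
        have h1 : sSup S ≤ x := csSup_le ⟨y, hyS⟩ hub
        have h2 : y ≤ sSup S := le_csSup ⟨x, hub⟩ hyS
        exact ⟨h1, by linarith⟩
  calc gaussianReal 0 1 {x | ∃ y, |y - x| ≤ r ∧ y ∈ S}
      ≤ gaussianReal 0 1 (S ∪ (Icc (sInf S - r) (sInf S) ∪ Icc (sSup S) (sSup S + r))) :=
        measure_mono hsub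
    _ ≤ gaussianReal 0 1 S + gaussianReal 0 1 (Icc (sInf S - r) (sInf S) ∪
        Icc (sSup S) (sSup S + r)) := measure_union_le _ _
    _ ≤ gaussianReal 0 1 S + (gaussianReal 0 1 (Icc (sInf S - r) (sInf S)) +
        gaussianReal 0 1 (Icc (sSup S) (sSup S + r))) := by
        gcongr
        exact measure_union_le _ _
    _ ≤ gaussianReal 0 1 S + (volume (Icc (sInf S - r) (sInf S)) +
        volume (Icc (sSup S) (sSup S + r))) := by
        gcongr
    _ = gaussianReal 0 1 S + ENNReal.ofReal (2 * r) := by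
        rw [Real.volume_Icc, Real.volume_Icc, ← ENNReal.ofReal_add (by linarith) (by linarith)]
        have e : sInf S - (sInf S - r) + (sSup S + r - sSup S) = 2 * r := by ring
        rw [e]

/-- The window supremum of a quasi-concave function has almost the same Gaussian integral. -/
lemma integral_win_le {f : ℝ → ℝ} (h : QC f) (h0 : ∀ x, 0 ≤ f x) (h1 : ∀ x, f x ≤ 1) {r : ℝ}
    (hr : 0 ≤ r) :
    ∫ z, win r f z ∂(gaussianReal 0 1) ≤ ∫ z, f z ∂(gaussianReal 0 1) + 2 * r := by
  have hw0 : ∀ x, 0 ≤ win r f x := fun x => (h0 x).trans (le_win h1 (by simpa using hr))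
  have hw1 : ∀ x, win r f x ≤ 1 := fun x => win_le hr fun y _ => h1 y
  have hwm : Measurable (win r f) := (h.win hr h1).measurable
  have hfm : Measurable f := h.measurable
  have bddint : ∀ g : ℝ → ℝ, Measurable g → (∀ x, 0 ≤ g x) → (∀ x, g x ≤ 1) →
      Integrable g (gaussianReal 0 1) := by
    intro g hg g0 g1
    refine (integrable_const (1 : ℝ)).mono' hg.aestronglyMeasurable ?_
    exact Filter.Eventually.of_forall fun x => by
      rw [Real.norm_eq_abs, abs_of_nonneg (g0 x)]; exact g1 x
  have hwi := bddint _ hwm hw0 hw1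
  have hfi := bddint _ hfm h0 h1
  have key : ∫⁻ z, ENNReal.ofReal (win r f z) ∂(gaussianReal 0 1)
      ≤ ∫⁻ z, ENNReal.ofReal (f z) ∂(gaussianReal 0 1) + ENNReal.ofReal (2 * r) := by
    rw [lintegral_eq_lintegral_meas_lt _ (Filter.Eventually.of_forall hw0) hwm.aemeasurable,
      lintegral_eq_lintegral_meas_lt _ (Filter.Eventually.of_forall h0) hfm.aemeasurable]
    have hind : ∫⁻ c in Ioi (0 : ℝ), (Iio (1 : ℝ)).indicator (fun _ => ENNReal.ofReal (2 * r)) c
        = ENNReal.ofReal (2 * r) := by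
      rw [lintegral_indicator measurableSet_Iio, Measure.restrict_restrict measurableSet_Iio,
        lintegral_const, Measure.restrict_apply MeasurableSet.univ, univ_inter,
        Iio_inter_Ioi, Real.volume_Ioo]
      simp
    rw [← hind, ← lintegral_add_right _ (measurable_const.indicator measurableSet_Iio)]
    refine lintegral_mono fun c => ?_
    by_cases hc : c < 1
    · rw [indicator_of_mem (by exact hc)]
      have e : {a | c < win r f a} = {x | ∃ y, |y - x| ≤ r ∧ y ∈ {x | c < f x}} := by
        ext x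
        exact lt_win_iff hr h1
      rw [e]
      exact nbhd_measure (h.ordConnected c) hr
    · have e : {a | c < win r f a} = ∅ := by
        ext x
        constructor
        · intro hx
          exact absurd (lt_of_lt_of_le hx (hw1 x)) hc
        · exact fun hx => hx.elim
      rw [e, measure_empty]
      exact bot_le
  rw [← ofReal_integral_eq_lintegral_ofReal hwi (Filter.Eventually.of_forall hw0),
    ← ofReal_integral_eq_lintegral_ofReal hfi (Filter.Eventually.of_forall h0),
    ← ENNReal.ofReal_add (integral_nonneg h0) (by linarith)] at key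
  have h2 : 0 ≤ ∫ z, f z ∂(gaussianReal 0 1) + 2 * r :=
    add_nonneg (integral_nonneg h0) (by linarith)
  exact (ENNReal.ofReal_le_ofReal_iff h2).mp key

end Vale.Agent.P262.Ehr
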