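import Vale.Agent.P262.Ehr.Heat
import Vale.Agent.P262.Ehr.Win

open MeasureTheory ProbabilityTheory Set Filter Topology

namespace Vale.Agent.P262.Ehr

/-- The average over the window `[x - ε, x + ε]`. -/
noncomputable def avg (ε : ℝ) (w : ℝ → ℝ) (x : ℝ) : ℝ := (2 * ε)⁻¹ * ∫ y in (x - ε)..(x + ε), w y

/-- Bounded measurable functions. -/
structure BM (w : ℝ → ℝ) : Prop where
  m : Measurable w
  b : ∀ x, |w x| ≤ 1

lemma BM.ii {w : ℝ → ℝ} (h : BM w) (a b : ℝ) : IntervalIntegrable w volume a b := by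
  refine (intervalIntegrable_const (c := (1 : ℝ))).mono_fun h.m.aestronglyMeasurable ?_
  exact Filter.Eventually.of_forall fun x => by
    simp only [Real.norm_eq_abs, abs_one]; exact h.b x

lemma avg_le {w : ℝ → ℝ} (h : BM w) {ε : ℝ} (hε : 0 < ε) {x b : ℝ}
    (hb : ∀ y, |y - x| ≤ ε → w y ≤ b) : avg ε w x ≤ b := by
  have h1 : ∫ y in (x - ε)..(x + ε), w y ≤ ∫ _y in (x - ε)..(x + ε), b :=
    intervalIntegral.integral_mono_on (by linarith) (h.ii _ _) (intervalIntegrable_const)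
      fun y hy => hb y (by rw [abs_le]; constructor <;> linarith [hy.1, hy.2])
  rw [intervalIntegral.integral_const, smul_eq_mul] at h1
  unfold avg
  calc (2 * ε)⁻¹ * ∫ y in (x - ε)..(x + ε), w y ≤ (2 * ε)⁻¹ * ((x + ε - (x - ε)) * b) :=
        mul_le_mul_of_nonneg_left h1 (by positivity)
    _ = b := by
        field_simp
        ring

lemma le_avg {w : ℝ → ℝ} (h : BM w) {ε : ℝ} (hε : 0 < ε) {x b : ℝ}
    (hb : ∀ y, |y - x| ≤ ε → b ≤ w y) : b ≤ avg ε w x := by
  have h1 : ∫ _y in (x - ε)..(x + ε), b ≤ ∫ y in (x - ε)..(x + ε), w y :=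
    intervalIntegral.integral_mono_on (by linarith) (intervalIntegrable_const) (h.ii _ _)
      fun y hy => hb y (by rw [abs_le]; constructor <;> linarith [hy.1, hy.2])
  rw [intervalIntegral.integral_const, smul_eq_mul] at h1
  unfold avg
  calc b = (2 * ε)⁻¹ * ((x + ε - (x - ε)) * b) := by
        field_simp
        ring
    _ ≤ (2 * ε)⁻¹ * ∫ y in (x - ε)..(x + ε), w y :=
        mul_le_mul_of_nonneg_left h1 (by positivity)

lemma avg_eq {w : ℝ → ℝ} (h : BM w) (ε x : ℝ) :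
    avg ε w x = (2 * ε)⁻¹ * ((∫ y in (0 : ℝ)..(x + ε), w y) - ∫ y in (0 : ℝ)..(x - ε), w y) := by
  unfold avg
  rw [intervalIntegral.integral_interval_sub_left (h.ii _ _) (h.ii _ _)]

lemma avg_continuous {w : ℝ → ℝ} (h : BM w) (ε : ℝ) : Continuous (avg ε w) := by
  have h1 : Continuous fun x => ∫ y in (0 : ℝ)..x, w y :=
    intervalIntegral.continuous_primitive (fun a b => h.ii a b) 0
  have h2 : avg ε w = fun x => (2 * ε)⁻¹ * ((∫ y in (0 : ℝ)..(x + ε), w y)
      - ∫ y in (0 : ℝ)..(x - ε), w y) := funext fun x => avg_eq h ε x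
  rw [h2]
  exact continuous_const.mul ((h1.comp (continuous_id.add continuous_const)).sub
    (h1.comp (continuous_id.sub continuous_const)))

lemma avg_hasDerivAt {w : ℝ → ℝ} (h : BM w) (hc : Continuous w) (ε x : ℝ) :
    HasDerivAt (avg ε w) ((2 * ε)⁻¹ * (w (x + ε) - w (x - ε))) x := by
  have h2 : avg ε w = fun x => (2 * ε)⁻¹ * ((∫ y in (0 : ℝ)..(x + ε), w y)
      - ∫ y in (0 : ℝ)..(x - ε), w y) := funext fun x => avg_eq h ε x
  have h3 : ∀ z, HasDerivAt (fun x => ∫ y in (0 : ℝ)..x, w y) (w z) z := fun z =>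
    intervalIntegral.integral_hasDerivAt_right (h.ii _ _)
      (hc.stronglyMeasurableAtFilter _ _) hc.continuousAt
  rw [h2]
  exact ((HasDerivAt.comp_add_const x ε (h3 (x + ε))).sub
    (HasDerivAt.comp_sub_const x ε (h3 (x - ε)))).const_mul _

lemma BM.avg {w : ℝ → ℝ} (h : BM w) {ε : ℝ} (hε : 0 < ε) : BM (avg ε w) := by
  refine ⟨(avg_continuous h ε).measurable, fun x => ?_⟩
  rw [abs_le]
  exact ⟨le_avg h hε fun y _ => (abs_le.mp (h.b y)).1, avg_le h hε fun y _ => (abs_le.mp (h.b y)).2⟩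

/-- The threefold average. -/
noncomputable def avg3 (ε : ℝ) (w : ℝ → ℝ) : ℝ → ℝ := avg ε (avg ε (avg ε w))

lemma avg3_le {w : ℝ → ℝ} (h : BM w) {ε : ℝ} (hε : 0 < ε) {x b : ℝ}
    (hb : ∀ y, |y - x| ≤ 3 * ε → w y ≤ b) : avg3 ε w x ≤ b := by
  refine avg_le (h.avg hε |>.avg hε) hε fun y hy => ?_
  refine avg_le (h.avg hε) hε fun z hz => ?_
  refine avg_le h hε fun v hv => hb v ?_
  rw [abs_le] at *
  constructor <;> linarith [hy.1, hy.2, hz.1, hz.2, hv.1, hv.2]

lemma le_avg3 {w : ℝ → ℝ} (h : BM w) {ε : ℝ} (hε : 0 < ε) {x b : ℝ}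
    (hb : ∀ y, |y - x| ≤ 3 * ε → b ≤ w y) : b ≤ avg3 ε w x := by
  refine le_avg (h.avg hε |>.avg hε) hε fun y hy => ?_
  refine le_avg (h.avg hε) hε fun z hz => ?_
  refine le_avg h hε fun v hv => hb v ?_
  rw [abs_le] at *
  constructor <;> linarith [hy.1, hy.2, hz.1, hz.2, hv.1, hv.2]

lemma avg3_C2b {w : ℝ → ℝ} (h : BM w) {ε : ℝ} (hε : 0 < ε) :
    ∃ g1 g2, C2b (avg3 ε w) g1 g2 (1 + ε⁻¹ + ε⁻¹ ^ 2) := by
  have b1 := h.avg hε
  have b2 := b1.avg hε
  have b3 := b2.avg hε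
  have c1 := avg_continuous h ε
  have c2 := avg_continuous b1 ε
  set d2 : ℝ → ℝ := fun x => (2 * ε)⁻¹ * (avg ε w (x + ε) - avg ε w (x - ε)) with hd2
  have hi : 0 < ε⁻¹ := inv_pos.mpr hε
  have hpos : 0 < (2 * ε)⁻¹ := by positivity
  have bd : ∀ u : ℝ → ℝ, ∀ c, (∀ x, |u x| ≤ c) → ∀ x, |(2 * ε)⁻¹ * (u (x + ε) - u (x - ε))| ≤ ε⁻¹ * c := by
    intro u c hu x
    rw [abs_mul, abs_of_pos hpos]
    have h1 : |u (x + ε) - u (x - ε)| ≤ c + c :=
      (abs_sub _ _).trans (add_le_add (hu _) (hu _))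
    calc (2 * ε)⁻¹ * |u (x + ε) - u (x - ε)| ≤ (2 * ε)⁻¹ * (c + c) :=
          mul_le_mul_of_nonneg_left h1 hpos.le
      _ = ε⁻¹ * c := by
          rw [mul_inv]; ring
  have hd2b : ∀ x, |d2 x| ≤ ε⁻¹ := fun x => by
    have := bd (avg ε w) 1 b1.b x
    rwa [mul_one] at this
  refine ⟨fun x => (2 * ε)⁻¹ * (avg ε (avg ε w) (x + ε) - avg ε (avg ε w) (x - ε)),
    fun x => (2 * ε)⁻¹ * (d2 (x + ε) - d2 (x - ε)), ⟨?_, ?_, ?_, ?_, ?_, ?_⟩⟩
  · exact fun x => avg_hasDerivAt b2 c2 ε x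
  · intro x
    have k : ∀ z, HasDerivAt (avg ε (avg ε w)) (d2 z) z := fun z => avg_hasDerivAt b1 c1 ε z
    exact ((HasDerivAt.comp_add_const x ε (k (x + ε))).sub
      (HasDerivAt.comp_sub_const x ε (k (x - ε)))).const_mul _
  · have cd2 : Continuous d2 := continuous_const.mul
      ((c1.comp (continuous_id.add continuous_const)).sub
        (c1.comp (continuous_id.sub continuous_const)))
    exact continuous_const.mul
      ((cd2.comp (continuous_id.add continuous_const)).sub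
        (cd2.comp (continuous_id.sub continuous_const)))
  · intro x
    have := b3.b x
    have h2 : 0 ≤ ε⁻¹ ^ 2 := sq_nonneg _
    unfold avg3
    linarith
  · intro x
    have := bd (avg ε (avg ε w)) 1 b2.b x
    have h2 : 0 ≤ ε⁻¹ ^ 2 := sq_nonneg _
    linarith
  · intro x
    have := bd d2 ε⁻¹ hd2b x
    have h2 : ε⁻¹ ^ 2 = ε⁻¹ * ε⁻¹ := sq _
    linarith

lemma QC.bm_win {f : ℝ → ℝ} (h : QC f) (h0 : ∀ x, 0 ≤ f x) (h1 : ∀ x, f x ≤ 1) {r : ℝ}
    (hr : 0 ≤ r) : BM (Vale.Agent.P262.Ehr.win r f) := by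
  refine ⟨(h.win hr h1).measurable, fun x => ?_⟩
  rw [abs_of_nonneg ((h0 x).trans (le_win h1 (by simpa using hr)))]
  exact win_le hr fun y _ => h1 y

lemma QC.integrable {f : ℝ → ℝ} (h : QC f) (h0 : ∀ x, 0 ≤ f x) (h1 : ∀ x, f x ≤ 1) :
    Integrable f (gaussianReal 0 1) := by
  refine (integrable_const (1 : ℝ)).mono' h.measurable.aestronglyMeasurable ?_
  exact Filter.Eventually.of_forall fun x => by
    rw [Real.norm_eq_abs, abs_of_nonneg (h0 x)]; exact h1 x

lemma BM.integrable {f : ℝ → ℝ} (h : BM f) : Integrable f (gaussianReal 0 1) := by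
  refine (integrable_const (1 : ℝ)).mono' h.m.aestronglyMeasurable ?_
  exact Filter.Eventually.of_forall fun x => by
    rw [Real.norm_eq_abs]; exact h.b x

lemma integral_mem {f : ℝ → ℝ} {a b : ℝ} (hi : Integrable f (gaussianReal 0 1))
    (h0 : ∀ x, a ≤ f x) (h1 : ∀ x, f x ≤ b) :
    a ≤ ∫ z, f z ∂(gaussianReal 0 1) ∧ ∫ z, f z ∂(gaussianReal 0 1) ≤ b := by
  constructor
  · have h : ∫ _z, a ∂(gaussianReal 0 1) ≤ ∫ z, f z ∂(gaussianReal 0 1) :=
      integral_mono (integrable_const a) hi h0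
    simpa using h
  · have h : ∫ z, f z ∂(gaussianReal 0 1) ≤ ∫ _z, b ∂(gaussianReal 0 1) :=
      integral_mono hi (integrable_const b) h1
    simpa using h

/-- One-dimensional functional Ehrhard inequality for quasi-concave functions with values in
`[δ, 1 - δ]`. -/
theorem ehrhard_trunc {f g h : ℝ → ℝ} {δ t : ℝ} (ht0 : 0 < t) (ht1 : t < 1)
    (hδ : 0 < δ) (qf : QC f) (qg : QC g) (qh : QC h)
    (f0 : ∀ x, δ ≤ f x) (f1 : ∀ x, f x ≤ 1 - δ)
    (g0 : ∀ x, δ ≤ g x) (g1 : ∀ x, g x ≤ 1 - δ)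
    (h0 : ∀ x, δ ≤ h x) (h1 : ∀ x, h x ≤ 1 - δ)
    (hle : ∀ x y, (1 - t) * Psi (f x) + t * Psi (g y) ≤ Psi (h ((1 - t) * x + t * y))) :
    (1 - t) * Psi (∫ z, f z ∂(gaussianReal 0 1)) + t * Psi (∫ z, g z ∂(gaussianReal 0 1))
      ≤ Psi (∫ z, h z ∂(gaussianReal 0 1)) := by
  have ht1' : 0 < 1 - t := by linarith
  have f1' : ∀ x, f x ≤ 1 := fun x => (f1 x).trans (by linarith)
  have g1' : ∀ x, g x ≤ 1 := fun x => (g1 x).trans (by linarith)
  have h1' : ∀ x, h x ≤ 1 := fun x => (h1 x).trans (by linarith)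
  have f0' : ∀ x, 0 ≤ f x := fun x => hδ.le.trans (f0 x)
  have g0' : ∀ x, 0 ≤ g x := fun x => hδ.le.trans (g0 x)
  have h0' : ∀ x, 0 ≤ h x := fun x => hδ.le.trans (h0 x)
  have If := qf.integrable f0' f1'
  have Ig := qg.integrable g0' g1'
  have Ih := qh.integrable h0' h1'
  obtain ⟨F0, F1⟩ := integral_mem If f0 f1
  obtain ⟨G0, G1⟩ := integral_mem Ig g0 g1
  obtain ⟨H0, H1⟩ := integral_mem Ih h0 h1
  have key : ∀ ε : ℝ, 0 < ε → ∫ z, h z ∂(gaussianReal 0 1) + 24 * ε < 1 →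
      (1 - t) * Psi (∫ z, f z ∂(gaussianReal 0 1)) + t * Psi (∫ z, g z ∂(gaussianReal 0 1))
      ≤ Psi (∫ z, h z ∂(gaussianReal 0 1) + 24 * ε) := by
    intro ε hε hlt
    have wf := qf.bm_win f0' f1' (r := 3 * ε) (by positivity)
    have wg := qg.bm_win g0' g1' (r := 3 * ε) (by positivity)
    have wh := qh.bm_win h0' h1' (r := 9 * ε) (by positivity)
    obtain ⟨a1, a2, cf⟩ := avg3_C2b wf hε
    obtain ⟨b1, b2, cg⟩ := avg3_C2b wg hε
    obtain ⟨c1, c2, ch⟩ := avg3_C2b wh hε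
    -- pointwise bounds
    have lo : ∀ (u : ℝ → ℝ) (r : ℝ), 0 ≤ r → (∀ x, u x ≤ 1) → (∀ x, δ ≤ u x) → BM (win r u) →
        ∀ x, δ ≤ avg3 ε (win r u) x := by
      intro u r hr hu1 hu hb x
      exact le_avg3 hb hε fun y _ => (hu y).trans (le_win hu1 (by simpa using hr))
    have up : ∀ (u : ℝ → ℝ) (r : ℝ), 0 ≤ r → (∀ x, u x ≤ 1 - δ) → BM (win r u) →
        ∀ x, avg3 ε (win r u) x ≤ 1 - δ := by
      intro u r hr hu hb x
      exact avg3_le hb hε fun y _ => win_le hr fun z _ => hu z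
    have F0' := lo f (3 * ε) (by positivity) f1' f0 wf
    have G0' := lo g (3 * ε) (by positivity) g1' g0 wg
    have H0' := lo h (9 * ε) (by positivity) h1' h0 wh
    have F1' := up f (3 * ε) (by positivity) f1 wf
    have G1' := up g (3 * ε) (by positivity) g1 wg
    have H1' := up h (9 * ε) (by positivity) h1 wh
    have hfu : ∀ x, f x ≤ avg3 ε (win (3 * ε) f) x := fun x =>
      le_avg3 wf hε fun y hy => le_win f1' (by rw [abs_sub_comm x y]; exact hy)
    have hgu : ∀ x, g x ≤ avg3 ε (win (3 * ε) g) x := fun x =>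
      le_avg3 wg hε fun y hy => le_win g1' (by rw [abs_sub_comm x y]; exact hy)
    have hfw : ∀ x, avg3 ε (win (3 * ε) f) x ≤ win (6 * ε) f x := fun x =>
      avg3_le wf hε fun y hy => win_le (by positivity) fun z hz => le_win f1' (by
        rw [abs_le] at *
        constructor <;> linarith [hy.1, hy.2, hz.1, hz.2])
    have hgw : ∀ x, avg3 ε (win (3 * ε) g) x ≤ win (6 * ε) g x := fun x =>
      avg3_le wg hε fun y hy => win_le (by positivity) fun z hz => le_win g1' (by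
        rw [abs_le] at *
        constructor <;> linarith [hy.1, hy.2, hz.1, hz.2])
    have hhw : ∀ x, win (6 * ε) h x ≤ avg3 ε (win (9 * ε) h) x := fun x =>
      le_avg3 wh hε fun y hy => win_le (by positivity) fun z hz => le_win h1' (by
        rw [abs_le] at *
        constructor <;> linarith [hy.1, hy.2, hz.1, hz.2])
    have hhw2 : ∀ x, avg3 ε (win (9 * ε) h) x ≤ win (12 * ε) h x := fun x =>
      avg3_le wh hε fun y hy => win_le (by positivity) fun z hz => le_win h1' (by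
        rw [abs_le] at *
        constructor <;> linarith [hy.1, hy.2, hz.1, hz.2])
    -- the pointwise inequality for the regularised functions
    have hwin : ∀ x y, (1 - t) * Psi (win (6 * ε) f x) + t * Psi (win (6 * ε) g y)
        ≤ Psi (win (6 * ε) h ((1 - t) * x + t * y)) := by
      intro x y
      have r0 : (0 : ℝ) ≤ 6 * ε := by positivity
      have m : ∀ (u : ℝ → ℝ), (∀ x, δ ≤ u x) → (∀ x, u x ≤ 1 - δ) → ∀ x,
          δ ≤ win (6 * ε) u x ∧ win (6 * ε) u x ≤ 1 - δ := fun u u0 u1 x =>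
        ⟨(u0 x).trans (le_win (fun x => (u1 x).trans (by linarith)) (by simpa using r0)),
          win_le r0 fun z _ => u1 z⟩
      obtain ⟨mf0, mf1⟩ := m f f0 f1 x
      obtain ⟨mg0, mg1⟩ := m g g0 g1 y
      obtain ⟨mh0, mh1⟩ := m h h0 h1 ((1 - t) * x + t * y)
      set P := Psi (win (6 * ε) h ((1 - t) * x + t * y)) with hP
      -- sup over the first variable
      have s1 : ∀ y', |y' - y| ≤ 6 * ε →
          (1 - t) * Psi (win (6 * ε) f x) + t * Psi (g y') ≤ P := by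
        intro y' hy'
        have e1 : win (6 * ε) f x ≤ Phi ((P - t * Psi (g y')) / (1 - t)) := by
          refine win_le r0 fun x' hx' => ?_
          have e2 := hle x' y'
          have e3 : h ((1 - t) * x' + t * y') ≤ win (6 * ε) h ((1 - t) * x + t * y) := by
            refine le_win h1' ?_
            have e4 : (1 - t) * x' + t * y' - ((1 - t) * x + t * y)
                = (1 - t) * (x' - x) + t * (y' - y) := by ring
            rw [e4]
            calc |(1 - t) * (x' - x) + t * (y' - y)| ≤ |(1 - t) * (x' - x)| + |t * (y' - y)| :=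
                  abs_add_le _ _
              _ = (1 - t) * |x' - x| + t * |y' - y| := by
                  rw [abs_mul, abs_mul, abs_of_pos ht1', abs_of_pos ht0]
              _ ≤ (1 - t) * (6 * ε) + t * (6 * ε) :=
                  add_le_add (mul_le_mul_of_nonneg_left hx' ht1'.le)
                    (mul_le_mul_of_nonneg_left hy' ht0.le)
              _ = 6 * ε := by ring
          have e5 := Psi_le_Psi (hδ.trans_le (h0 _)) e3 (by linarith)
          have e6 : Psi (f x') ≤ (P - t * Psi (g y')) / (1 - t) := by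
            rw [le_div_iff₀ ht1']
            linarith
          have e7 := Phi_strictMono.monotone e6
          rwa [Phi_Psi (hδ.trans_le (f0 x')) (by linarith [f1 x'])] at e7
        have e8 := Psi_le_Psi (hδ.trans_le mf0) e1 (Phi_lt_one _)
        rw [Psi_Phi, le_div_iff₀ ht1'] at e8
        linarith
      have e1 : win (6 * ε) g y ≤ Phi ((P - (1 - t) * Psi (win (6 * ε) f x)) / t) := by
        refine win_le r0 fun y' hy' => ?_
        have e6 : Psi (g y') ≤ (P - (1 - t) * Psi (win (6 * ε) f x)) / t := by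
          rw [le_div_iff₀ ht0]
          linarith [s1 y' hy']
        have e7 := Phi_strictMono.monotone e6
        rwa [Phi_Psi (hδ.trans_le (g0 y')) (by linarith [g1 y'])] at e7
      have e8 := Psi_le_Psi (hδ.trans_le mg0) e1 (Phi_lt_one _)
      rw [Psi_Phi, le_div_iff₀ ht0] at e8
      linarith
    have hreg : ∀ x y, (1 - t) * Psi (avg3 ε (win (3 * ε) f) x)
        + t * Psi (avg3 ε (win (3 * ε) g) y)
        ≤ Psi (avg3 ε (win (9 * ε) h) ((1 - t) * x + t * y)) := by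
      intro x y
      have r0 : (0 : ℝ) ≤ 6 * ε := by positivity
      have e1 := Psi_le_Psi (hδ.trans_le (F0' x)) (hfw x)
        (lt_of_le_of_lt (win_le r0 fun z _ => f1 z) (by linarith))
      have e2 := Psi_le_Psi (hδ.trans_le (G0' y)) (hgw y)
        (lt_of_le_of_lt (win_le r0 fun z _ => g1 z) (by linarith))
      have e3 := Psi_le_Psi (hδ.trans_le ((h0 ((1 - t) * x + t * y)).trans
          (le_win (y := (1 - t) * x + t * y) h1' (by simpa using r0))))
        (hhw ((1 - t) * x + t * y)) (lt_of_le_of_lt (H1' _) (by linarith))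
      have e4 := hwin x y
      have e5 := mul_le_mul_of_nonneg_left e1 ht1'.le
      have e6 := mul_le_mul_of_nonneg_left e2 ht0.le
      linarith
    have main := ehrhard_smooth ht0 ht1 hδ cf cg ch F0' F1' G0' G1' H0' H1' hreg
    -- comparison of the integrals
    have BF : BM (avg3 ε (win (3 * ε) f)) := ((wf.avg hε).avg hε).avg hε
    have BG : BM (avg3 ε (win (3 * ε) g)) := ((wg.avg hε).avg hε).avg hε
    have BH : BM (avg3 ε (win (9 * ε) h)) := ((wh.avg hε).avg hε).avg hε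
    have i1 : ∫ z, f z ∂(gaussianReal 0 1) ≤ ∫ z, avg3 ε (win (3 * ε) f) z ∂(gaussianReal 0 1) :=
      integral_mono If BF.integrable hfu
    have i2 : ∫ z, g z ∂(gaussianReal 0 1) ≤ ∫ z, avg3 ε (win (3 * ε) g) z ∂(gaussianReal 0 1) :=
      integral_mono Ig BG.integrable hgu
    have i3 : ∫ z, avg3 ε (win (9 * ε) h) z ∂(gaussianReal 0 1)
        ≤ ∫ z, h z ∂(gaussianReal 0 1) + 24 * ε := by
      have e1 : ∫ z, avg3 ε (win (9 * ε) h) z ∂(gaussianReal 0 1)
          ≤ ∫ z, win (12 * ε) h z ∂(gaussianReal 0 1) :=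
        integral_mono BH.integrable (qh.bm_win h0' h1' (r := 12 * ε) (by positivity)).integrable hhw2
      have e2 := integral_win_le qh h0' h1' (r := 12 * ε) (by positivity)
      linarith
    obtain ⟨m1, m2⟩ := integral_mem BF.integrable F0' F1'
    obtain ⟨m3, m4⟩ := integral_mem BG.integrable G0' G1'
    obtain ⟨m5, m6⟩ := integral_mem BH.integrable H0' H1'
    have j1 := Psi_le_Psi (hδ.trans_le F0) i1 (by linarith)
    have j2 := Psi_le_Psi (hδ.trans_le G0) i2 (by linarith)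
    have j3 := Psi_le_Psi (hδ.trans_le m5) i3 hlt
    have j5 := mul_le_mul_of_nonneg_left j1 ht1'.le
    have j6 := mul_le_mul_of_nonneg_left j2 ht0.le
    linarith
  -- limit
  have hcont : ContinuousAt Psi (∫ z, h z ∂(gaussianReal 0 1)) :=
    Psi_continuousAt (by linarith) (by linarith)
  have hT : Tendsto (fun ε : ℝ => Psi (∫ z, h z ∂(gaussianReal 0 1) + 24 * ε)) (𝓝[>] 0)
      (𝓝 (Psi (∫ z, h z ∂(gaussianReal 0 1)))) := by
    have h2 : Tendsto (fun ε : ℝ => ∫ z, h z ∂(gaussianReal 0 1) + 24 * ε) (𝓝[>] 0)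
        (𝓝 (∫ z, h z ∂(gaussianReal 0 1))) := by
      have h3 : Tendsto (fun ε : ℝ => ∫ z, h z ∂(gaussianReal 0 1) + 24 * ε) (𝓝 0)
          (𝓝 (∫ z, h z ∂(gaussianReal 0 1) + 24 * 0)) :=
        (tendsto_const_nhds).add ((tendsto_id).const_mul 24)
      rw [mul_zero, add_zero] at h3
      exact h3.mono_left nhdsWithin_le_nhds
    exact hcont.tendsto.comp h2
  refine ge_of_tendsto hT ?_
  have h4 : ∀ᶠ ε : ℝ in 𝓝[>] 0, ε ∈ Ioo (0 : ℝ) (δ / 48) := Ioo_mem_nhdsGT (by positivity)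
  filter_upwards [h4] with ε hε
  exact key ε hε.1 (by linarith [hε.2])

end Vale.Agent.P262.Ehr
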