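import Vale.Agent.P262.Ehr.Avg

open MeasureTheory ProbabilityTheory Set Filter Topology

namespace Vale.Agent.P262.Ehr

/-- The Ehrhard combination `Phi ((1 - t) Phi⁻¹ a + t Phi⁻¹ b)` of `a, b ∈ [0, 1]`, for
`0 < t < 1`, with value `0` if `a = 0` or `b = 0` and value `1` if `a, b > 0` and one of them
is `1`. -/
noncomputable def comb (t a b : ℝ) : ℝ :=
  if a ≤ 0 ∨ b ≤ 0 then 0 else if 1 ≤ a ∨ 1 ≤ b then 1 else Phi ((1 - t) * Psi a + t * Psi b)

lemma comb_zero {t a b : ℝ} (h : a ≤ 0 ∨ b ≤ 0) : comb t a b = 0 := if_pos h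

lemma comb_one {t a b : ℝ} (ha : 0 < a) (hb : 0 < b) (h : 1 ≤ a ∨ 1 ≤ b) : comb t a b = 1 := by
  unfold comb
  rw [if_neg (by push Not; exact ⟨ha, hb⟩), if_pos h]

lemma comb_mid {t a b : ℝ} (ha : 0 < a) (ha1 : a < 1) (hb : 0 < b) (hb1 : b < 1) :
    comb t a b = Phi ((1 - t) * Psi a + t * Psi b) := by
  unfold comb
  rw [if_neg (by push Not; exact ⟨ha, hb⟩), if_neg (by push Not; exact ⟨ha1, hb1⟩)]

lemma comb_nonneg (t a b : ℝ) : 0 ≤ comb t a b := by
  unfold comb
  split_ifs
  · exact le_rfl
  · exact zero_le_one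
  · exact (Phi_pos _).le

lemma comb_le_one (t a b : ℝ) : comb t a b ≤ 1 := by
  unfold comb
  split_ifs
  · exact zero_le_one
  · exact le_rfl
  · exact (Phi_lt_one _).le

lemma comb_mono {t a b a' b' : ℝ} (ht0 : 0 < t) (ht1 : t < 1) (ha : a ≤ a') (hb : b ≤ b') :
    comb t a b ≤ comb t a' b' := by
  by_cases h0 : a ≤ 0 ∨ b ≤ 0
  · rw [comb_zero h0]
    exact comb_nonneg _ _ _
  · push Not at h0
    obtain ⟨a0, b0⟩ := h0
    by_cases h1 : 1 ≤ a' ∨ 1 ≤ b'
    · rw [comb_one (a0.trans_le ha) (b0.trans_le hb) h1]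
      exact comb_le_one _ _ _
    · push Not at h1
      obtain ⟨a1, b1⟩ := h1
      rw [comb_mid a0 (ha.trans_lt a1) b0 (hb.trans_lt b1),
        comb_mid (a0.trans_le ha) a1 (b0.trans_le hb) b1]
      refine Phi_strictMono.monotone ?_
      have h2 := Psi_le_Psi a0 ha a1
      have h3 := Psi_le_Psi b0 hb b1
      have h4 := mul_le_mul_of_nonneg_left h2 (by linarith : (0:ℝ) ≤ 1 - t)
      have h5 := mul_le_mul_of_nonneg_left h3 ht0.le
      linarith

lemma comb_self {t a : ℝ} (h0 : 0 ≤ a) (h1 : a ≤ 1) : comb t a a = a := by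
  rcases h0.lt_or_eq with h | rfl
  · rcases h1.lt_or_eq with h' | rfl
    · rw [comb_mid h h' h h', show (1 - t) * Psi a + t * Psi a = Psi a by ring, Phi_Psi h h']
    · rw [comb_one h h (Or.inl le_rfl)]
  · rw [comb_zero (Or.inl le_rfl)]

lemma min_le_comb {t a b : ℝ} (ht0 : 0 < t) (ht1 : t < 1) (a0 : 0 ≤ a) (a1 : a ≤ 1)
    (b0 : 0 ≤ b) : min a b ≤ comb t a b := by
  have h := comb_mono (t := t) ht0 ht1 (min_le_left a b) (min_le_right a b)
  rwa [comb_self (le_min a0 b0) ((min_le_left _ _).trans a1)] at h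

lemma QC.comp_mono {f φ : ℝ → ℝ} (h : QC f) (hφ : Monotone φ) : QC (fun x => φ (f x)) := by
  intro x y z hxy hyz
  show min (φ (f x)) (φ (f z)) ≤ φ (f y)
  rw [← hφ.map_min]
  exact hφ (h x y z hxy hyz)

lemma Psi_tendsto_zero : Tendsto Psi (𝓝[>] 0) atBot := by
  rw [tendsto_atBot]
  intro R
  have h : ∀ᶠ x : ℝ in 𝓝[>] 0, x ∈ Ioo (0 : ℝ) (Phi R) := Ioo_mem_nhdsGT (Phi_pos R)
  filter_upwards [h] with x hx
  have h2 := (Psi_lt_Psi hx.1 hx.2 (Phi_lt_one R)).le
  rwa [Psi_Phi] at h2

lemma Psi_tendsto_one : Tendsto (fun η => Psi (1 - η)) (𝓝[>] 0) atTop := by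
  rw [tendsto_atTop]
  intro R
  have h : ∀ᶠ x : ℝ in 𝓝[>] 0, x ∈ Ioo (0 : ℝ) (1 - Phi R) :=
    Ioo_mem_nhdsGT (by linarith [Phi_lt_one R])
  filter_upwards [h] with x hx
  have h2 := (Psi_lt_Psi (Phi_pos R) (by linarith [hx.2] : Phi R < 1 - x) (by linarith [hx.1])).le
  rwa [Psi_Phi] at h2

/-- **One-dimensional functional Ehrhard inequality** for quasi-concave functions with values
in `[0, 1]`. -/
theorem ehrhard_one {f g h : ℝ → ℝ} {t : ℝ} (ht0 : 0 < t) (ht1 : t < 1)
    (qf : QC f) (qg : QC g) (qh : QC h)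
    (f0 : ∀ x, 0 ≤ f x) (f1 : ∀ x, f x ≤ 1)
    (g0 : ∀ x, 0 ≤ g x) (g1 : ∀ x, g x ≤ 1)
    (h0 : ∀ x, 0 ≤ h x) (h1 : ∀ x, h x ≤ 1)
    (hle : ∀ x y, comb t (f x) (g y) ≤ h ((1 - t) * x + t * y)) :
    comb t (∫ z, f z ∂(gaussianReal 0 1)) (∫ z, g z ∂(gaussianReal 0 1))
      ≤ ∫ z, h z ∂(gaussianReal 0 1) := by
  have ht1' : 0 < 1 - t := by linarith
  have If := qf.integrable f0 f1
  have Ig := qg.integrable g0 g1
  have Ih := qh.integrable h0 h1
  obtain ⟨A0, A1⟩ := integral_mem If f0 f1
  obtain ⟨B0, B1⟩ := integral_mem Ig g0 g1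
  obtain ⟨C0, C1⟩ := integral_mem Ih h0 h1
  set a := ∫ z, f z ∂(gaussianReal 0 1) with ha
  set b := ∫ z, g z ∂(gaussianReal 0 1) with hb
  set c := ∫ z, h z ∂(gaussianReal 0 1) with hc
  rcases A0.lt_or_eq with a0 | a0
  swap
  · rw [comb_zero (Or.inl a0.symm.le)]; exact C0
  rcases B0.lt_or_eq with b0 | b0
  swap
  · rw [comb_zero (Or.inr b0.symm.le)]; exact C0
  -- the truncated inequality
  have key : ∀ η : ℝ, 0 < η → η < 1 / 2 →
      Phi ((1 - t) * Psi ((1 - η) * a) + t * Psi ((1 - η) * b)) ≤ c := by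
    intro η hη hη2
    set κ : ℝ → ℝ := fun δ => max (Phi ((1 - t) * Psi δ + t * Psi (1 - η)))
      (Phi ((1 - t) * Psi (1 - η) + t * Psi δ)) with hκ
    have step : ∀ δ : ℝ, 0 < δ → δ < η →
        Phi ((1 - t) * Psi ((1 - η) * a) + t * Psi ((1 - η) * b)) ≤ c + κ δ := by
      intro δ hδ hδη
      have hd1 : δ ≤ 1 - η := by linarith
      have hPs : Psi δ ≤ Psi (1 - η) := Psi_le_Psi hδ hd1 (by linarith)
      have k0 : δ ≤ κ δ := by
        refine le_trans ?_ (le_max_left _ _)
        have h2 : Psi δ ≤ (1 - t) * Psi δ + t * Psi (1 - η) := by nlinarith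
        have h3 := Phi_strictMono.monotone h2
        rwa [Phi_Psi hδ (by linarith)] at h3
      have k1 : κ δ ≤ 1 - η := by
        refine max_le ?_ ?_
        · have h2 : (1 - t) * Psi δ + t * Psi (1 - η) ≤ Psi (1 - η) := by nlinarith
          have h3 := Phi_strictMono.monotone h2
          rwa [Phi_Psi (by linarith) (by linarith)] at h3
        · have h2 : (1 - t) * Psi (1 - η) + t * Psi δ ≤ Psi (1 - η) := by nlinarith
          have h3 := Phi_strictMono.monotone h2
          rwa [Phi_Psi (by linarith) (by linarith)] at h3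
      set φ : ℝ → ℝ := fun x => max δ (min x (1 - η)) with hφ
      set ψ : ℝ → ℝ := fun x => max (κ δ) (min x (1 - η)) with hψ
      have mφ : Monotone φ := fun x y hxy => max_le_max le_rfl (min_le_min hxy le_rfl)
      have mψ : Monotone ψ := fun x y hxy => max_le_max le_rfl (min_le_min hxy le_rfl)
      have qf' := qf.comp_mono mφ
      have qg' := qg.comp_mono mφ
      have qh' := qh.comp_mono mψ
      have p0 : ∀ x, δ ≤ φ x := fun x => le_max_left _ _
      have p1 : ∀ x, φ x ≤ 1 - η := fun x => max_le hd1 (min_le_right _ _)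
      have q0 : ∀ x, κ δ ≤ ψ x := fun x => le_max_left _ _
      have q1 : ∀ x, ψ x ≤ 1 - η := fun x => max_le k1 (min_le_right _ _)
      have q0' : ∀ x, δ ≤ ψ x := fun x => k0.trans (q0 x)
      have main := ehrhard_trunc ht0 ht1 hδ qf' qg' qh'
        (fun x => p0 _) (fun x => (p1 _).trans (by linarith))
        (fun x => p0 _) (fun x => (p1 _).trans (by linarith))
        (fun x => q0' _) (fun x => (q1 _).trans (by linarith)) (by
          intro x y
          show (1 - t) * Psi (φ (f x)) + t * Psi (φ (g y)) ≤ Psi (ψ (h ((1 - t) * x + t * y)))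
          have P1 : ∀ w, Psi (φ w) ≤ Psi (1 - η) := fun w =>
            Psi_le_Psi (hδ.trans_le (p0 w)) (p1 w) (by linarith)
          by_cases c1 : f x < δ
          · have e1 : φ (f x) = δ := by
              simp only [hφ]
              exact max_eq_left ((min_le_left _ _).trans c1.le)
            rw [e1]
            have e2 : (1 - t) * Psi δ + t * Psi (φ (g y)) ≤ (1 - t) * Psi δ + t * Psi (1 - η) := by
              have := mul_le_mul_of_nonneg_left (P1 (g y)) ht0.le
              linarith
            refine e2.trans ?_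
            have e3 : Phi ((1 - t) * Psi δ + t * Psi (1 - η)) ≤ ψ (h ((1 - t) * x + t * y)) :=
              (le_max_left _ _).trans (q0 _)
            have e4 := Psi_le_Psi (Phi_pos _) e3 (by linarith [q1 (h ((1 - t) * x + t * y))])
            rwa [Psi_Phi] at e4
          · by_cases c2 : g y < δ
            · have e1 : φ (g y) = δ := by
                simp only [hφ]
                exact max_eq_left ((min_le_left _ _).trans c2.le)
              rw [e1]
              have e2 : (1 - t) * Psi (φ (f x)) + t * Psi δ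
                  ≤ (1 - t) * Psi (1 - η) + t * Psi δ := by
                have := mul_le_mul_of_nonneg_left (P1 (f x)) ht1'.le
                linarith
              refine e2.trans ?_
              have e3 : Phi ((1 - t) * Psi (1 - η) + t * Psi δ) ≤ ψ (h ((1 - t) * x + t * y)) :=
                (le_max_right _ _).trans (q0 _)
              have e4 := Psi_le_Psi (Phi_pos _) e3 (by linarith [q1 (h ((1 - t) * x + t * y))])
              rwa [Psi_Phi] at e4
            · rw [not_lt] at c1 c2
              have e1 : φ (f x) = min (f x) (1 - η) := max_eq_right (le_min c1 hd1)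
              have e2 : φ (g y) = min (g y) (1 - η) := max_eq_right (le_min c2 hd1)
              rw [e1, e2]
              set A := min (f x) (1 - η) with hA
              set B := min (g y) (1 - η) with hB
              have hA0 : 0 < A := lt_min (by linarith) (by linarith)
              have hB0 : 0 < B := lt_min (by linarith) (by linarith)
              have hA1 : A ≤ 1 - η := min_le_right _ _
              have hB1 : B ≤ 1 - η := min_le_right _ _
              have e3 : comb t A B ≤ h ((1 - t) * x + t * y) :=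
                (comb_mono ht0 ht1 (min_le_left _ _) (min_le_left _ _)).trans (hle x y)
              have e4 : comb t A B ≤ 1 - η := by
                have := comb_mono (t := t) ht0 ht1 hA1 hB1
                rwa [comb_self (by linarith) (by linarith)] at this
              rw [comb_mid hA0 (by linarith) hB0 (by linarith)] at e3 e4
              have e5 : Phi ((1 - t) * Psi A + t * Psi B) ≤ ψ (h ((1 - t) * x + t * y)) :=
                (le_min e3 e4).trans (le_max_right _ _)
              have e6 := Psi_le_Psi (Phi_pos _) e5 (by linarith [q1 (h ((1 - t) * x + t * y))])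
              rwa [Psi_Phi] at e6)
      -- integrals
      have If' := qf'.integrable (fun x => hδ.le.trans (p0 _)) (fun x => (p1 _).trans (by linarith))
      have Ig' := qg'.integrable (fun x => hδ.le.trans (p0 _)) (fun x => (p1 _).trans (by linarith))
      have Ih' := qh'.integrable (fun x => hδ.le.trans (q0' _)) (fun x => (q1 _).trans (by linarith))
      have i1 : (1 - η) * a ≤ ∫ z, φ (f z) ∂(gaussianReal 0 1) := by
        rw [ha, ← integral_const_mul]
        refine integral_mono (If.const_mul _) If' fun z => ?_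
        show (1 - η) * f z ≤ max δ (min (f z) (1 - η))
        refine le_trans (le_min ?_ ?_) (le_max_right _ _)
        · nlinarith [f0 z]
        · nlinarith [f1 z]
      have i2 : (1 - η) * b ≤ ∫ z, φ (g z) ∂(gaussianReal 0 1) := by
        rw [hb, ← integral_const_mul]
        refine integral_mono (Ig.const_mul _) Ig' fun z => ?_
        show (1 - η) * g z ≤ max δ (min (g z) (1 - η))
        refine le_trans (le_min ?_ ?_) (le_max_right _ _)
        · nlinarith [g0 z]
        · nlinarith [g1 z]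
      have i3 : ∫ z, ψ (h z) ∂(gaussianReal 0 1) ≤ c + κ δ := by
        have e1 : ∫ z, ψ (h z) ∂(gaussianReal 0 1) ≤ ∫ z, (h z + κ δ) ∂(gaussianReal 0 1) := by
          refine integral_mono Ih' (Ih.add (integrable_const _)) fun z => ?_
          show max (κ δ) (min (h z) (1 - η)) ≤ h z + κ δ
          refine max_le (by linarith [h0 z]) ?_
          exact (min_le_left _ _).trans (by linarith)
        rw [integral_add Ih (integrable_const _)] at e1
        simpa using e1
      obtain ⟨m1, m2⟩ := integral_mem If' (fun x => p0 _) (fun x => p1 _)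
      obtain ⟨m3, m4⟩ := integral_mem Ig' (fun x => p0 _) (fun x => p1 _)
      obtain ⟨m5, m6⟩ := integral_mem Ih' (fun x => q0' _) (fun x => q1 _)
      have j1 := Psi_le_Psi (by nlinarith : 0 < (1 - η) * a) i1 (by linarith)
      have j2 := Psi_le_Psi (by nlinarith : 0 < (1 - η) * b) i2 (by linarith)
      have j5 := mul_le_mul_of_nonneg_left j1 ht1'.le
      have j6 := mul_le_mul_of_nonneg_left j2 ht0.le
      have j7 : (1 - t) * Psi ((1 - η) * a) + t * Psi ((1 - η) * b)
          ≤ Psi (∫ z, ψ (h z) ∂(gaussianReal 0 1)) := by linarith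
      have j8 := Phi_strictMono.monotone j7
      rw [Phi_Psi (by linarith) (by linarith)] at j8
      exact j8.trans i3
    have hκ0 : Tendsto κ (𝓝[>] 0) (𝓝 0) := by
      have e1 : Tendsto (fun δ => Phi ((1 - t) * Psi δ + t * Psi (1 - η))) (𝓝[>] 0) (𝓝 0) :=
        Phi_tendsto_atBot.comp (tendsto_atBot_add_const_right _ _
          (Psi_tendsto_zero.const_mul_atBot ht1'))
      have e2 : Tendsto (fun δ => Phi ((1 - t) * Psi (1 - η) + t * Psi δ)) (𝓝[>] 0) (𝓝 0) :=
        Phi_tendsto_atBot.comp (tendsto_atBot_add_const_left _ _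
          (Psi_tendsto_zero.const_mul_atBot ht0))
      have e3 := e1.max e2
      rwa [max_self] at e3
    have hT : Tendsto (fun δ => c + κ δ) (𝓝[>] 0) (𝓝 (c + 0)) := tendsto_const_nhds.add hκ0
    rw [add_zero] at hT
    refine ge_of_tendsto hT ?_
    have h4 : ∀ᶠ δ : ℝ in 𝓝[>] 0, δ ∈ Ioo (0 : ℝ) η := Ioo_mem_nhdsGT hη
    filter_upwards [h4] with δ hδ
    exact step δ hδ.1 hδ.2
  have ev : ∀ᶠ η : ℝ in 𝓝[>] 0, η ∈ Ioo (0 : ℝ) (1 / 2) := Ioo_mem_nhdsGT (by norm_num)
  have hmul : ∀ x : ℝ, Tendsto (fun η : ℝ => (1 - η) * x) (𝓝[>] 0) (𝓝 x) := by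
    intro x
    have h3 : Tendsto (fun η : ℝ => (1 - η) * x) (𝓝 0) (𝓝 ((1 - 0) * x)) :=
      ((tendsto_const_nhds).sub tendsto_id).mul_const x
    rw [sub_zero, one_mul] at h3
    exact h3.mono_left nhdsWithin_le_nhds
  by_cases hab : 1 ≤ a ∨ 1 ≤ b
  · rw [comb_one a0 b0 hab]
    rcases hab with h | h
    · have ha1 : a = 1 := le_antisymm A1 h
      have hT : Tendsto (fun η : ℝ => Phi ((1 - t) * Psi (1 - η) + t * Psi (b / 2))) (𝓝[>] 0)
          (𝓝 1) := Phi_tendsto_atTop.comp (tendsto_atTop_add_const_right _ _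
            (Psi_tendsto_one.const_mul_atTop ht1'))
      refine le_of_tendsto hT ?_
      filter_upwards [ev] with η hη
      have k := key η hη.1 hη.2
      rw [ha1, mul_one] at k
      refine le_trans (Phi_strictMono.monotone ?_) k
      have e1 : Psi (b / 2) ≤ Psi ((1 - η) * b) :=
        Psi_le_Psi (by linarith) (by nlinarith [hη.2]) (by nlinarith [hη.1])
      have := mul_le_mul_of_nonneg_left e1 ht0.le
      linarith
    · have hb1 : b = 1 := le_antisymm B1 h
      have hT : Tendsto (fun η : ℝ => Phi ((1 - t) * Psi (a / 2) + t * Psi (1 - η))) (𝓝[>] 0)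
          (𝓝 1) := Phi_tendsto_atTop.comp (tendsto_atTop_add_const_left _ _
            (Psi_tendsto_one.const_mul_atTop ht0))
      refine le_of_tendsto hT ?_
      filter_upwards [ev] with η hη
      have k := key η hη.1 hη.2
      rw [hb1, mul_one] at k
      refine le_trans (Phi_strictMono.monotone ?_) k
      have e1 : Psi (a / 2) ≤ Psi ((1 - η) * a) :=
        Psi_le_Psi (by linarith) (by nlinarith [hη.2]) (by nlinarith [hη.1])
      have := mul_le_mul_of_nonneg_left e1 ht1'.le
      linarith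
  · push Not at hab
    rw [comb_mid a0 hab.1 b0 hab.2]
    have hT : Tendsto (fun η : ℝ => Phi ((1 - t) * Psi ((1 - η) * a) + t * Psi ((1 - η) * b)))
        (𝓝[>] 0) (𝓝 (Phi ((1 - t) * Psi a + t * Psi b))) := by
      refine (Phi_continuous.tendsto _).comp ?_
      exact (((Psi_continuousAt a0 hab.1).tendsto.comp (hmul a)).const_mul _).add
        (((Psi_continuousAt b0 hab.2).tendsto.comp (hmul b)).const_mul _)
    refine le_of_tendsto hT ?_
    filter_upwards [ev] with η hη
    exact key η hη.1 hη.2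

end Vale.Agent.P262.Ehr
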