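import Mathlib

open MeasureTheory ProbabilityTheory Set Filter Topology

namespace Vale.Agent.P262.Ehr

/-- Necessary second order condition at a global minimum. -/
lemma second_deriv_nonneg {F F1 : ℝ → ℝ} {c : ℝ} (h1 : ∀ r, HasDerivAt F (F1 r) r)
    (h2 : HasDerivAt F1 c 0) (hmin : ∀ r, F 0 ≤ F r) : 0 ≤ c := by
  by_contra hc
  rw [not_le] at hc
  have h0 : F1 0 = 0 := by
    have hm : IsLocalMin F 0 := Filter.Eventually.of_forall hmin
    exact hm.hasDerivAt_eq_zero (h1 0)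
  have h3 := h2.tendsto_slope_zero_right
  have h4 : ∀ᶠ t in 𝓝[>] (0 : ℝ), t⁻¹ • (F1 (0 + t) - F1 0) < 0 :=
    h3.eventually (gt_mem_nhds hc)
  rw [eventually_nhdsWithin_iff, Metric.eventually_nhds_iff] at h4
  obtain ⟨ε, hε, h5⟩ := h4
  have h6 : ∀ t ∈ Ioo (0 : ℝ) (ε / 2), F1 t < 0 := by
    intro t ht
    have h7 := h5 (y := t) (by rw [Real.dist_eq, sub_zero, abs_of_pos ht.1]; linarith [ht.2]) ht.1
    rw [h0, zero_add, sub_zero, smul_eq_mul] at h7
    by_contra h8
    rw [not_lt] at h8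
    have := mul_nonneg (inv_nonneg.mpr ht.1.le) h8
    linarith
  obtain ⟨ξ, hξ, h8⟩ := exists_hasDerivAt_eq_slope F F1 (a := 0) (b := ε / 2) (by linarith)
    (fun x _ => (h1 x).continuousAt.continuousWithinAt) (fun x _ => h1 x)
  have h9 := h6 ξ hξ
  rw [h8] at h9
  have h10 := hmin (ε / 2)
  have h11 : 0 ≤ (F (ε / 2) - F 0) / (ε / 2 - 0) :=
    div_nonneg (by linarith) (by linarith)
  linarith

/-- One sided first order condition. -/
lemma left_deriv_nonpos {F : ℝ → ℝ} {D s : ℝ} (hs : 0 < s) (h : HasDerivAt F D s)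
    (hmin : ∀ r ∈ Icc 0 s, F s ≤ F r) : D ≤ 0 := by
  have h1 := h.tendsto_slope_zero_left
  refine le_of_tendsto h1 ?_
  have h2 : ∀ᶠ t in 𝓝[<] (0 : ℝ), t ∈ Ioo (-s) 0 := Ioo_mem_nhdsLT (by linarith)
  filter_upwards [h2] with t ht
  have h3 := hmin (s + t) ⟨by linarith [ht.1], by linarith [ht.2]⟩
  rw [smul_eq_mul]
  exact mul_nonpos_of_nonpos_of_nonneg (inv_nonpos.mpr ht.2.le) (by linarith)

/-- The data of a solution of `∂_s U = (U'' - U U'^2) / 2`. -/
structure Sol (U A B : ℝ → ℝ → ℝ) (M : ℝ) : Prop where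
  cont : Continuous fun p : ℝ × ℝ => U p.1 p.2
  dx : ∀ s x, 0 < s → HasDerivAt (fun y => U s y) (A s x) x
  dxx : ∀ s x, 0 < s → HasDerivAt (fun y => A s y) (B s x) x
  ds : ∀ s x, 0 < s → HasDerivAt (fun r => U r x) ((B s x - U s x * A s x ^ 2) / 2) s
  bU : ∀ s x, |U s x| ≤ M
  bA : ∀ s x, |A s x| ≤ M

/-- The arithmetic at the minimum point. -/
lemma maxp_arith {M t η x y uf ug uh af ag ah bf bg bh : ℝ}
    (hη : 0 < η) (hM : 0 ≤ M) (bUf : |uf| ≤ M) (bUg : |ug| ≤ M) (bAf : |af| ≤ M)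
    (bAg : |ag| ≤ M) (bAh : |ah| ≤ M) (hCn : uh - (1 - t) * uf - t * ug < 0)
    (e1 : (1 - t) * ah - (1 - t) * af + 2 * η * x = 0)
    (e2 : t * ah - t * ag + 2 * η * y = 0)
    (e3 : 0 ≤ bh - (1 - t) * bf - t * bg + 4 * η)
    (e4 : (bh - uh * ah ^ 2) / 2 - (1 - t) * ((bf - uf * af ^ 2) / 2)
      - t * ((bg - ug * ag ^ 2) / 2) + (3 + 2 * M ^ 2) * η * (1 + x ^ 2 + y ^ 2) ≤ 0) : False := by
  have g1 : -(4 * M ^ 2 * η * |x|) ≤ (1 - t) * uf * (af ^ 2 - ah ^ 2) := by
    have h1 : (1 - t) * uf * (af ^ 2 - ah ^ 2) = (2 * η * x) * (uf * (af + ah)) := by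
      have : 2 * η * x = (1 - t) * (af - ah) := by linarith
      rw [this]; ring
    rw [h1]
    have h2 : |uf * (af + ah)| ≤ M * (M + M) := by
      rw [abs_mul]
      exact mul_le_mul bUf ((abs_add_le _ _).trans (add_le_add bAf bAh)) (abs_nonneg _) hM
    have h3 : |(2 * η * x) * (uf * (af + ah))| ≤ 4 * M ^ 2 * η * |x| := by
      rw [abs_mul, abs_mul, abs_of_pos (by positivity : 0 < 2 * η)]
      calc 2 * η * |x| * |uf * (af + ah)| ≤ 2 * η * |x| * (M * (M + M)) :=
            mul_le_mul_of_nonneg_left h2 (by positivity)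
        _ = 4 * M ^ 2 * η * |x| := by ring
    exact (abs_le.mp h3).1
  have g2 : -(4 * M ^ 2 * η * |y|) ≤ t * ug * (ag ^ 2 - ah ^ 2) := by
    have h1 : t * ug * (ag ^ 2 - ah ^ 2) = (2 * η * y) * (ug * (ag + ah)) := by
      have : 2 * η * y = t * (ag - ah) := by linarith
      rw [this]; ring
    rw [h1]
    have h2 : |ug * (ag + ah)| ≤ M * (M + M) := by
      rw [abs_mul]
      exact mul_le_mul bUg ((abs_add_le _ _).trans (add_le_add bAg bAh)) (abs_nonneg _) hM
    have h3 : |(2 * η * y) * (ug * (ag + ah))| ≤ 4 * M ^ 2 * η * |y| := by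
      rw [abs_mul, abs_mul, abs_of_pos (by positivity : 0 < 2 * η)]
      calc 2 * η * |y| * |ug * (ag + ah)| ≤ 2 * η * |y| * (M * (M + M)) :=
            mul_le_mul_of_nonneg_left h2 (by positivity)
        _ = 4 * M ^ 2 * η * |y| := by ring
    exact (abs_le.mp h3).1
  have g3 : (uh - (1 - t) * uf - t * ug) * ah ^ 2 ≤ 0 :=
    mul_nonpos_of_nonpos_of_nonneg hCn.le (sq_nonneg _)
  have g4 : |x| + |y| ≤ 1 + x ^ 2 + y ^ 2 := by
    have h1 : |x| ≤ (1 + x ^ 2) / 2 := by
      nlinarith [sq_nonneg (|x| - 1), sq_abs x]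
    have h2 : |y| ≤ (1 + y ^ 2) / 2 := by
      nlinarith [sq_nonneg (|y| - 1), sq_abs y]
    nlinarith [sq_nonneg x, sq_nonneg y]
  have g5 : 2 * M ^ 2 * η * (|x| + |y|) ≤ 2 * M ^ 2 * η * (1 + x ^ 2 + y ^ 2) :=
    mul_le_mul_of_nonneg_left g4 (by positivity)
  have g6 : 0 < η * (1 + 3 * (x ^ 2 + y ^ 2)) := by positivity
  have g7 : (3 + 2 * M ^ 2) * η * (1 + x ^ 2 + y ^ 2) = 2 * M ^ 2 * η * (1 + x ^ 2 + y ^ 2)
      + η * (1 + 3 * (x ^ 2 + y ^ 2)) + 2 * η := by ring
  have g8 : (uh - (1 - t) * uf - t * ug) * ah ^ 2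
      = uh * ah ^ 2 - (1 - t) * uf * ah ^ 2 - t * ug * ah ^ 2 := by ring
  have g9 : (1 - t) * uf * (af ^ 2 - ah ^ 2)
      = (1 - t) * (uf * af ^ 2) - (1 - t) * uf * ah ^ 2 := by ring
  have g10 : t * ug * (ag ^ 2 - ah ^ 2) = t * (ug * ag ^ 2) - t * ug * ah ^ 2 := by ring
  have g11 : 2 * M ^ 2 * η * (|x| + |y|) = (4 * M ^ 2 * η * |x|) / 2 + (4 * M ^ 2 * η * |y|) / 2 := by
    ring
  have g12 : (1 - t) * ((bf - uf * af ^ 2) / 2) = (1 - t) * bf / 2 - (1 - t) * (uf * af ^ 2) / 2 := by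
    ring
  have g13 : t * ((bg - ug * ag ^ 2) / 2) = t * bg / 2 - t * (ug * ag ^ 2) / 2 := by
    ring
  linarith

theorem maxp {Uf Af Bf Ug Ag Bg Uh Ah Bh : ℝ → ℝ → ℝ} {M t : ℝ} (ht0 : 0 < t) (ht1 : t < 1)
    (hf : Sol Uf Af Bf M) (hg : Sol Ug Ag Bg M) (hh : Sol Uh Ah Bh M)
    (h0 : ∀ x y, (1 - t) * Uf 0 x + t * Ug 0 y ≤ Uh 0 ((1 - t) * x + t * y)) (x y : ℝ) :
    (1 - t) * Uf 1 x + t * Ug 1 y ≤ Uh 1 ((1 - t) * x + t * y) := by
  by_contra hcon
  rw [not_le] at hcon
  have hM : 0 ≤ M := (abs_nonneg _).trans (hf.bU 0 0)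
  set K : ℝ := 3 + 2 * M ^ 2 with hK
  have hKpos : 0 < K := by positivity
  set C : ℝ → ℝ → ℝ → ℝ := fun s x y =>
    Uh s ((1 - t) * x + t * y) - (1 - t) * Uf s x - t * Ug s y with hC
  have hneg : C 1 x y < 0 := by simp only [hC]; linarith
  -- the small parameter
  obtain ⟨ε, hε, hε2⟩ : ∃ ε : ℝ, 0 < ε ∧ C 1 x y + ε * Real.exp (K * 1) * (1 + x ^ 2 + y ^ 2) < 0 := by
    refine ⟨-C 1 x y / (2 * (Real.exp (K * 1) * (1 + x ^ 2 + y ^ 2))), ?_, ?_⟩
    · exact div_pos (by linarith) (by positivity)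
    · have h1 : 0 < Real.exp (K * 1) * (1 + x ^ 2 + y ^ 2) := by positivity
      have h2 : -C 1 x y / (2 * (Real.exp (K * 1) * (1 + x ^ 2 + y ^ 2))) * Real.exp (K * 1) *
          (1 + x ^ 2 + y ^ 2) = -C 1 x y / 2 := by
        field_simp
      rw [h2]
      linarith
  set D : ℝ → ℝ → ℝ → ℝ := fun s x y => C s x y + ε * Real.exp (K * s) * (1 + x ^ 2 + y ^ 2) with hD
  have hCb : ∀ s x y, -(2 * M) ≤ C s x y := by
    intro s x y
    have h1 := abs_le.mp (hh.bU s ((1 - t) * x + t * y))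
    have h2 := abs_le.mp (hf.bU s x)
    have h3 := abs_le.mp (hg.bU s y)
    simp only [hC]
    nlinarith [h1.1, h2.2, h3.2, mul_le_mul_of_nonneg_left h2.2 (by linarith : (0:ℝ) ≤ 1 - t),
      mul_le_mul_of_nonneg_left h3.2 ht0.le]
  -- compactness
  obtain ⟨R, hR, hR2⟩ : ∃ R : ℝ, 0 < R ∧ 2 * M < ε * R ^ 2 := by
    refine ⟨2 * M / ε + 1, by positivity, ?_⟩
    have h1 : ε * (2 * M / ε + 1) ^ 2 = (2 * M / ε + 1) * (2 * M + ε) := by
      field_simp
    rw [h1]
    have h2 : 1 ≤ 2 * M / ε + 1 := by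
      have : 0 ≤ 2 * M / ε := by positivity
      linarith
    nlinarith
  have hout : ∀ s x y, 0 ≤ s → (R < |x| ∨ R < |y|) → 0 < D s x y := by
    intro s x y hs h
    have h1 : R ^ 2 ≤ x ^ 2 + y ^ 2 := by
      rcases h with h | h
      · have : R ^ 2 ≤ |x| ^ 2 := by nlinarith
        rw [sq_abs] at this
        nlinarith [sq_nonneg y]
      · have : R ^ 2 ≤ |y| ^ 2 := by nlinarith
        rw [sq_abs] at this
        nlinarith [sq_nonneg x]
    have h2 : 1 ≤ Real.exp (K * s) := Real.one_le_exp (by positivity)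
    have h3 := hCb s x y
    simp only [hD]
    have h4 : ε * R ^ 2 ≤ ε * Real.exp (K * s) * (1 + x ^ 2 + y ^ 2) := by
      have h5 : ε * 1 ≤ ε * Real.exp (K * s) := mul_le_mul_of_nonneg_left h2 hε.le
      have h6 : R ^ 2 ≤ 1 + x ^ 2 + y ^ 2 := by linarith
      calc ε * R ^ 2 = ε * 1 * R ^ 2 := by ring
        _ ≤ ε * Real.exp (K * s) * (1 + x ^ 2 + y ^ 2) :=
          mul_le_mul h5 h6 (by positivity) (by positivity)
    linarith
  have hDcont : Continuous fun p : ℝ × ℝ × ℝ => D p.1 p.2.1 p.2.2 := by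
    simp only [hD, hC]
    have c1 : Continuous fun p : ℝ × ℝ × ℝ => Uh p.1 ((1 - t) * p.2.1 + t * p.2.2) :=
      hh.cont.comp (continuous_fst.prodMk (by fun_prop))
    have c2 : Continuous fun p : ℝ × ℝ × ℝ => Uf p.1 p.2.1 :=
      hf.cont.comp (continuous_fst.prodMk (by fun_prop))
    have c3 : Continuous fun p : ℝ × ℝ × ℝ => Ug p.1 p.2.2 :=
      hg.cont.comp (continuous_fst.prodMk (by fun_prop))
    have c4 : Continuous fun p : ℝ × ℝ × ℝ =>
        ε * Real.exp (K * p.1) * (1 + p.2.1 ^ 2 + p.2.2 ^ 2) := by fun_prop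
    exact ((c1.sub (c2.const_mul (1 - t))).sub (c3.const_mul t)).add c4
  have hcomp : IsCompact (Icc (0 : ℝ) 1 ×ˢ (Icc (-R) R ×ˢ Icc (-R) R)) :=
    isCompact_Icc.prod (isCompact_Icc.prod isCompact_Icc)
  obtain ⟨p, hp, hpmin⟩ := hcomp.exists_isMinOn
    ⟨((0 : ℝ), (0 : ℝ), (0 : ℝ)), by
      refine ⟨⟨le_rfl, zero_le_one⟩, ⟨by linarith, hR.le⟩, ⟨by linarith, hR.le⟩⟩⟩
    hDcont.continuousOn
  obtain ⟨s', x', y'⟩ := p
  obtain ⟨⟨hs0, hs1⟩, ⟨hx0, hx1⟩, hy0, hy1⟩ := hp
  simp only at hs0 hs1 hx0 hx1 hy0 hy1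
  -- global minimum
  have hD1 : D 1 x y < 0 := hε2
  have hin : |x| ≤ R ∧ |y| ≤ R := by
    constructor
    · by_contra h
      have := hout 1 x y zero_le_one (Or.inl (not_le.mp h))
      linarith
    · by_contra h
      have := hout 1 x y zero_le_one (Or.inr (not_le.mp h))
      linarith
  have hv : D s' x' y' < 0 := by
    have h1 := hpmin (a := ((1 : ℝ), x, y)) (by
      rw [mem_prod, mem_prod]
      exact ⟨⟨zero_le_one, le_rfl⟩, abs_le.mp hin.1, abs_le.mp hin.2⟩)
    exact lt_of_le_of_lt h1 hD1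
  have hglob : ∀ s a b, 0 ≤ s → s ≤ 1 → D s' x' y' ≤ D s a b := by
    intro s a b h1 h2
    by_cases h3 : |a| ≤ R ∧ |b| ≤ R
    · exact hpmin (a := (s, a, b)) (by
        rw [mem_prod, mem_prod]
        exact ⟨⟨h1, h2⟩, abs_le.mp h3.1, abs_le.mp h3.2⟩)
    · have h4 : R < |a| ∨ R < |b| := by
        by_contra h5
        push Not at h5
        exact h3 h5
      linarith [hout s a b h1 h4]
  -- the time is positive
  have hspos : 0 < s' := by
    rcases hs0.lt_or_eq with h | h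
    · exact h
    · exfalso
      have h1 := h0 x' y'
      have h2 : 0 ≤ C s' x' y' := by
        simp only [hC, ← h]
        linarith
      have h3 : 0 < ε * Real.exp (K * s') * (1 + x' ^ 2 + y' ^ 2) := by positivity
      simp only [hD] at hv
      linarith
  set z' : ℝ := (1 - t) * x' + t * y' with hz'
  set e : ℝ := Real.exp (K * s') with he
  have hepos : 0 < e := Real.exp_pos _
  have hCneg : C s' x' y' < 0 := by
    have h3 : 0 < ε * Real.exp (K * s') * (1 + x' ^ 2 + y' ^ 2) := by positivity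
    simp only [hD] at hv
    linarith
  -- first order condition in x
  have e1 : (1 - t) * Ah s' z' - (1 - t) * Af s' x' + 2 * (ε * e) * x' = 0 := by
    have hd : HasDerivAt (fun r => D s' r y')
        ((1 - t) * Ah s' z' - (1 - t) * Af s' x' + 2 * (ε * e) * x') x' := by
      have d1 : HasDerivAt (fun r : ℝ => (1 - t) * r + t * y') (1 - t) x' := by
        simpa using ((hasDerivAt_id x').const_mul (1 - t)).add_const (t * y')
      have d2 : HasDerivAt (fun r => Uh s' ((1 - t) * r + t * y')) (Ah s' z' * (1 - t)) x' :=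
        (hh.dx s' z' hspos).comp x' d1
      have d3 := (hf.dx s' x' hspos).const_mul (1 - t)
      have d4 : HasDerivAt (fun r : ℝ => ε * e * (1 + r ^ 2 + y' ^ 2)) (ε * e * (2 * x')) x' := by
        have := (((hasDerivAt_pow 2 x').const_add 1).add_const (y' ^ 2)).const_mul (ε * e)
        simpa using this
      have d5 := ((d2.sub d3).sub_const (t * Ug s' y')).add d4
      exact d5.congr_deriv (by ring)
    have hm : IsLocalMin (fun r => D s' r y') x' :=
      Filter.Eventually.of_forall fun r => hglob s' r y' hs0 hs1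
    exact hm.hasDerivAt_eq_zero hd
  have e2 : t * Ah s' z' - t * Ag s' y' + 2 * (ε * e) * y' = 0 := by
    have hd : HasDerivAt (fun r => D s' x' r)
        (t * Ah s' z' - t * Ag s' y' + 2 * (ε * e) * y') y' := by
      have d1 : HasDerivAt (fun r : ℝ => (1 - t) * x' + t * r) t y' := by
        simpa using ((hasDerivAt_id y').const_mul t).const_add ((1 - t) * x')
      have d2 : HasDerivAt (fun r => Uh s' ((1 - t) * x' + t * r)) (Ah s' z' * t) y' :=
        (hh.dx s' z' hspos).comp y' d1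
      have d3 := (hg.dx s' y' hspos).const_mul t
      have d4 : HasDerivAt (fun r : ℝ => ε * e * (1 + x' ^ 2 + r ^ 2)) (ε * e * (2 * y')) y' := by
        have := ((hasDerivAt_pow 2 y').const_add (1 + x' ^ 2)).const_mul (ε * e)
        simpa using this
      have d5 := ((d2.sub_const ((1 - t) * Uf s' x')).sub d3).add d4
      exact d5.congr_deriv (by ring)
    have hm : IsLocalMin (fun r => D s' x' r) y' :=
      Filter.Eventually.of_forall fun r => hglob s' x' r hs0 hs1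
    exact hm.hasDerivAt_eq_zero hd
  -- second order condition along (1,1)
  have e3 : 0 ≤ Bh s' z' - (1 - t) * Bf s' x' - t * Bg s' y' + 4 * (ε * e) := by
    have sh : ∀ a r : ℝ, HasDerivAt (fun r : ℝ => a + r) 1 r := fun a r => by
      simpa using (hasDerivAt_id r).const_add a
    refine second_deriv_nonneg (F := fun r => D s' (x' + r) (y' + r))
      (F1 := fun r => Ah s' (z' + r) - (1 - t) * Af s' (x' + r) - t * Ag s' (y' + r)
        + ε * e * (2 * (x' + r) + 2 * (y' + r))) ?_ ?_ ?_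
    · intro r
      have hzr : ∀ r : ℝ, (1 - t) * (x' + r) + t * (y' + r) = z' + r := fun r => by
        rw [hz']; ring
      have d1 : HasDerivAt (fun r => Uh s' ((1 - t) * (x' + r) + t * (y' + r)))
          (Ah s' (z' + r)) r := by
        simp only [hzr]
        exact HasDerivAt.comp_const_add z' r (hh.dx s' (z' + r) hspos)
      have d2 : HasDerivAt (fun r => Uf s' (x' + r)) (Af s' (x' + r)) r := by
        exact HasDerivAt.comp_const_add x' r (hf.dx s' (x' + r) hspos)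
      have d3 : HasDerivAt (fun r => Ug s' (y' + r)) (Ag s' (y' + r)) r := by
        exact HasDerivAt.comp_const_add y' r (hg.dx s' (y' + r) hspos)
      have d4 : HasDerivAt (fun r => ε * e * (1 + (x' + r) ^ 2 + (y' + r) ^ 2))
          (ε * e * (2 * (x' + r) + 2 * (y' + r))) r := by
        have a1 : HasDerivAt (fun r : ℝ => (x' + r) ^ 2) (2 * (x' + r)) r := by
          exact ((sh x' r).pow 2).congr_deriv (by simp)
        have a2 : HasDerivAt (fun r : ℝ => (y' + r) ^ 2) (2 * (y' + r)) r := by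
          exact ((sh y' r).pow 2).congr_deriv (by simp)
        exact ((a1.const_add 1).add a2).const_mul (ε * e)
      exact ((d1.sub (d2.const_mul (1 - t))).sub (d3.const_mul t)).add d4
    · have d1 : HasDerivAt (fun r => Ah s' (z' + r)) (Bh s' z') 0 := by
        have h := hh.dxx s' z' hspos
        rw [← add_zero z'] at h
        exact (HasDerivAt.comp_const_add z' 0 h).congr_deriv (by rw [add_zero])
      have d2 : HasDerivAt (fun r => Af s' (x' + r)) (Bf s' x') 0 := by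
        have h := hf.dxx s' x' hspos
        rw [← add_zero x'] at h
        exact (HasDerivAt.comp_const_add x' 0 h).congr_deriv (by rw [add_zero])
      have d3 : HasDerivAt (fun r => Ag s' (y' + r)) (Bg s' y') 0 := by
        have h := hg.dxx s' y' hspos
        rw [← add_zero y'] at h
        exact (HasDerivAt.comp_const_add y' 0 h).congr_deriv (by rw [add_zero])
      have d4 : HasDerivAt (fun r : ℝ => ε * e * (2 * (x' + r) + 2 * (y' + r)))
          (ε * e * (2 * 1 + 2 * 1)) 0 :=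
        (((sh x' 0).const_mul 2).add ((sh y' 0).const_mul 2)).const_mul (ε * e)
      have d5 := ((d1.sub (d2.const_mul (1 - t))).sub (d3.const_mul t)).add d4
      exact d5.congr_deriv (by ring)
    · intro r
      simp only [add_zero]
      exact hglob s' (x' + r) (y' + r) hs0 hs1
  -- time derivative
  have e4 : (Bh s' z' - Uh s' z' * Ah s' z' ^ 2) / 2
      - (1 - t) * ((Bf s' x' - Uf s' x' * Af s' x' ^ 2) / 2)
      - t * ((Bg s' y' - Ug s' y' * Ag s' y' ^ 2) / 2)
      + K * (ε * e) * (1 + x' ^ 2 + y' ^ 2) ≤ 0 := by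
    refine left_deriv_nonpos hspos (F := fun r => D r x' y') ?_ fun r hr => ?_
    · have d1 := hh.ds s' z' hspos
      have d2 := (hf.ds s' x' hspos).const_mul (1 - t)
      have d3 := (hg.ds s' y' hspos).const_mul t
      have d4 : HasDerivAt (fun r : ℝ => ε * Real.exp (K * r) * (1 + x' ^ 2 + y' ^ 2))
          (ε * (e * K) * (1 + x' ^ 2 + y' ^ 2)) s' := by
        have a1 : HasDerivAt (fun r : ℝ => K * r) K s' := by
          simpa using (hasDerivAt_id s').const_mul K
        exact ((a1.exp).const_mul ε).mul_const _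
      have d5 := ((d1.sub d2).sub d3).add d4
      exact d5.congr_deriv (by ring)
    · exact hglob r x' y' hr.1 (hr.2.trans hs1)
  -- conclusion
  exact maxp_arith (mul_pos hε hepos) hM (hf.bU s' x') (hg.bU s' y') (hf.bA s' x')
    (hg.bA s' y') (hh.bA s' z') hCneg e1 e2 e3 e4

end Vale.Agent.P262.Ehr
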