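import Mathlib

open MeasureTheory ProbabilityTheory Set Filter Topology

namespace Vale.Agent.P262.Ehr

/-- The standard normal density. -/
noncomputable def phi (x : ℝ) : ℝ := gaussianPDFReal 0 1 x

/-- The standard normal distribution function. -/
noncomputable def Phi (x : ℝ) : ℝ := (gaussianReal 0 1).real (Iic x)

lemma phi_pos (x : ℝ) : 0 < phi x := gaussianPDFReal_pos 0 1 x one_ne_zero

lemma phi_hasDerivAt (x : ℝ) : HasDerivAt phi (-(x * phi x)) x := by
  have h1 : HasDerivAt (fun y : ℝ => -(y - 0) ^ 2 / (2 * ((1 : NNReal) : ℝ))) (-x) x := by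
    have h2 : HasDerivAt (fun y : ℝ => -(y ^ 2) / 2) (-(2 * x) / 2) x := by
      have h0 := ((hasDerivAt_pow 2 x).neg).div_const (2 : ℝ)
      simpa using h0
    have h2' : (fun y : ℝ => -(y - 0) ^ 2 / (2 * ((1 : NNReal) : ℝ))) = fun y => -(y ^ 2) / 2 := by
      funext y
      simp
    rw [h2']
    have h2'' : -x = -(2 * x) / 2 := by ring
    rw [h2'']
    exact h2
  have h3 := (h1.exp).const_mul ((Real.sqrt (2 * Real.pi * ((1 : NNReal) : ℝ)))⁻¹)
  have h4 : phi = fun y => (Real.sqrt (2 * Real.pi * ((1 : NNReal) : ℝ)))⁻¹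
      * Real.exp (-(y - 0) ^ 2 / (2 * ((1 : NNReal) : ℝ))) := by
    funext y
    rw [phi, gaussianPDFReal_def]
  have h5 : -(x * phi x) = (Real.sqrt (2 * Real.pi * ((1 : NNReal) : ℝ)))⁻¹
      * (Real.exp (-(x - 0) ^ 2 / (2 * ((1 : NNReal) : ℝ))) * -x) := by
    rw [h4]
    ring
  rw [h5, h4]
  exact h3

lemma phi_continuous : Continuous phi :=
  continuous_iff_continuousAt.mpr fun x => (phi_hasDerivAt x).continuousAt

lemma phi_integrable : Integrable phi := integrable_gaussianPDFReal 0 1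

lemma Phi_eq (x : ℝ) : Phi x = ∫ t in Iic x, phi t := by
  rw [Phi, Measure.real, gaussianReal_apply_eq_integral 0 one_ne_zero, ENNReal.toReal_ofReal]
  · rfl
  · exact setIntegral_nonneg measurableSet_Iic fun t _ => (phi_pos t).le

lemma Phi_hasDerivAt (x : ℝ) : HasDerivAt Phi (phi x) x := by
  have h1 : Phi = fun y => Phi x + ∫ t in x..y, phi t := by
    funext y
    rw [Phi_eq, Phi_eq, ← intervalIntegral.integral_Iic_sub_Iic phi_integrable.integrableOn
      phi_integrable.integrableOn]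
    ring
  rw [h1]
  have h2 := intervalIntegral.integral_hasDerivAt_right (f := phi) (a := x) (b := x)
    (phi_continuous.intervalIntegrable _ _)
    (phi_continuous.stronglyMeasurableAtFilter _ _) phi_continuous.continuousAt
  exact h2.const_add _

lemma Phi_continuous : Continuous Phi :=
  continuous_iff_continuousAt.mpr fun x => (Phi_hasDerivAt x).continuousAt

lemma Phi_strictMono : StrictMono Phi := by
  refine strictMono_of_deriv_pos fun x => ?_
  rw [(Phi_hasDerivAt x).deriv]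
  exact phi_pos x

lemma Phi_tendsto_atTop : Tendsto Phi atTop (𝓝 1) := by
  have h := tendsto_cdf_atTop (gaussianReal 0 1)
  refine h.congr fun x => ?_
  rw [cdf_eq_real, Phi]

lemma Phi_tendsto_atBot : Tendsto Phi atBot (𝓝 0) := by
  have h := tendsto_cdf_atBot (gaussianReal 0 1)
  refine h.congr fun x => ?_
  rw [cdf_eq_real, Phi]

lemma Phi_pos (x : ℝ) : 0 < Phi x := by
  have h1 : Phi (x - 1) < Phi x := Phi_strictMono (by linarith)
  have h2 : 0 ≤ Phi (x - 1) := measureReal_nonneg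
  linarith

lemma Phi_lt_one (x : ℝ) : Phi x < 1 := by
  have h1 : Phi x < Phi (x + 1) := Phi_strictMono (by linarith)
  have h2 : Phi (x + 1) ≤ 1 := measureReal_le_one
  linarith

lemma exists_Phi_eq {a : ℝ} (h0 : 0 < a) (h1 : a < 1) : ∃ x, Phi x = a := by
  obtain ⟨b, hb⟩ := (Phi_tendsto_atBot.eventually (gt_mem_nhds h0)).exists
  obtain ⟨c, hc⟩ := (Phi_tendsto_atTop.eventually (lt_mem_nhds h1)).exists
  have hbc : b ≤ c := by
    by_contra h
    have := Phi_strictMono (not_le.mp h)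
    linarith
  obtain ⟨x, -, hx⟩ := intermediate_value_Icc hbc Phi_continuous.continuousOn ⟨hb.le, hc.le⟩
  exact ⟨x, hx⟩

/-- The inverse of `Phi` (a junk value outside `(0,1)`). -/
noncomputable def Psi (a : ℝ) : ℝ := Function.invFun Phi a

lemma Psi_Phi (x : ℝ) : Psi (Phi x) = x :=
  Function.leftInverse_invFun Phi_strictMono.injective x

lemma Phi_Psi {a : ℝ} (h0 : 0 < a) (h1 : a < 1) : Phi (Psi a) = a := by
  obtain ⟨x, rfl⟩ := exists_Phi_eq h0 h1
  rw [Psi_Phi]

lemma Psi_lt_Psi {a b : ℝ} (h0 : 0 < a) (hab : a < b) (h1 : b < 1) : Psi a < Psi b := by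
  obtain ⟨x, rfl⟩ := exists_Phi_eq h0 (hab.trans h1)
  obtain ⟨y, rfl⟩ := exists_Phi_eq (h0.trans hab) h1
  rw [Psi_Phi, Psi_Phi]
  exact Phi_strictMono.lt_iff_lt.mp hab

lemma Psi_le_Psi {a b : ℝ} (h0 : 0 < a) (hab : a ≤ b) (h1 : b < 1) : Psi a ≤ Psi b := by
  rcases hab.lt_or_eq with h | rfl
  · exact (Psi_lt_Psi h0 h h1).le
  · exact le_rfl

lemma Psi_continuousAt {a : ℝ} (h0 : 0 < a) (h1 : a < 1) : ContinuousAt Psi a := by
  rw [Metric.continuousAt_iff]
  intro ε hε
  obtain ⟨x, rfl⟩ := exists_Phi_eq h0 h1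
  have hl : Phi (x - ε) < Phi x := Phi_strictMono (by linarith)
  have hr : Phi x < Phi (x + ε) := Phi_strictMono (by linarith)
  refine ⟨min (Phi x - Phi (x - ε)) (Phi (x + ε) - Phi x), by
    apply lt_min <;> linarith, fun b hb => ?_⟩
  rw [Real.dist_eq, lt_min_iff, abs_lt, abs_lt] at hb
  have hb0 : 0 < b := by linarith [Phi_pos (x - ε), hb.1.1]
  have hb1 : b < 1 := by linarith [Phi_lt_one (x + ε), hb.2.2]
  obtain ⟨y, rfl⟩ := exists_Phi_eq hb0 hb1
  rw [Psi_Phi, Psi_Phi, Real.dist_eq, abs_lt]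
  have h2 : Phi (x - ε) < Phi y := by linarith [hb.1.1]
  have h3 : Phi y < Phi (x + ε) := by linarith [hb.2.2]
  have h4 := Phi_strictMono.lt_iff_lt.mp h2
  have h5 := Phi_strictMono.lt_iff_lt.mp h3
  constructor <;> linarith

lemma Psi_hasDerivAt {a : ℝ} (h0 : 0 < a) (h1 : a < 1) :
    HasDerivAt Psi (phi (Psi a))⁻¹ a := by
  refine HasDerivAt.of_local_left_inverse (Psi_continuousAt h0 h1) (Phi_hasDerivAt (Psi a))
    (phi_pos _).ne' ?_
  filter_upwards [Ioo_mem_nhds h0 h1] with b hb using Phi_Psi hb.1 hb.2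

end Vale.Agent.P262.Ehr
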