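import Vale.Agent.P367.GT.Stein
import Vale.Agent.P262.Ehr.Phi
import Vale.Agent.P262.Ehr.MaxP

open MeasureTheory ProbabilityTheory Set Filter Topology

namespace Vale.Agent.P262.Ehr

/-- The heat semigroup. -/
noncomputable def heat (f : ℝ → ℝ) (s x : ℝ) : ℝ :=
  ∫ z, f (x + Real.sqrt s * z) ∂(gaussianReal 0 1)

/-- Twice continuously differentiable bounded functions with their derivatives. -/
structure C2b (f f1 f2 : ℝ → ℝ) (L : ℝ) : Prop where
  d1 : ∀ x, HasDerivAt f (f1 x) x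
  d2 : ∀ x, HasDerivAt f1 (f2 x) x
  c2 : Continuous f2
  b0 : ∀ x, |f x| ≤ L
  b1 : ∀ x, |f1 x| ≤ L
  b2 : ∀ x, |f2 x| ≤ L

lemma heat_zero (f : ℝ → ℝ) (x : ℝ) : heat f 0 x = f x := by
  simp [heat]

lemma heat_one (f : ℝ → ℝ) (x : ℝ) : heat f 1 x = ∫ z, f (x + z) ∂(gaussianReal 0 1) := by
  simp [heat]

lemma heat_continuous {f : ℝ → ℝ} {L : ℝ} (hc : Continuous f) (hb : ∀ x, |f x| ≤ L) :
    Continuous fun p : ℝ × ℝ => heat f p.1 p.2 := by
  unfold heat
  refine continuous_of_dominated (bound := fun _ => L) (fun p => ?_) (fun p => ?_)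
    (integrable_const L) ?_
  · exact (hc.comp (by fun_prop)).aestronglyMeasurable
  · exact Filter.Eventually.of_forall fun z => by rw [Real.norm_eq_abs]; exact hb _
  · exact Filter.Eventually.of_forall fun z => hc.comp (by fun_prop)

lemma heat_integrable {f : ℝ → ℝ} {L : ℝ} (hc : Continuous f) (hb : ∀ x, |f x| ≤ L) (s x : ℝ) :
    Integrable (fun z => f (x + Real.sqrt s * z)) (gaussianReal 0 1) := by
  refine (integrable_const L).mono' (hc.comp (by fun_prop)).aestronglyMeasurable ?_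
  exact Filter.Eventually.of_forall fun z => by rw [Real.norm_eq_abs]; exact hb _

lemma heat_abs_le {f : ℝ → ℝ} {L : ℝ} (hb : ∀ x, |f x| ≤ L) (s x : ℝ) : |heat f s x| ≤ L := by
  have h := norm_integral_le_of_norm_le_const (μ := gaussianReal 0 1)
    (f := fun z => f (x + Real.sqrt s * z)) (C := L)
    (Filter.Eventually.of_forall fun z => by rw [Real.norm_eq_abs]; exact hb _)
  rw [Real.norm_eq_abs] at h
  unfold heat
  simpa using h

lemma heat_le {f : ℝ → ℝ} {L b : ℝ} (hc : Continuous f) (hb : ∀ x, |f x| ≤ L)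
    (h : ∀ x, f x ≤ b) (s x : ℝ) : heat f s x ≤ b := by
  have h1 : heat f s x ≤ ∫ _z, b ∂(gaussianReal 0 1) :=
    integral_mono (heat_integrable hc hb s x) (integrable_const b) fun z => h _
  simpa using h1

lemma le_heat {f : ℝ → ℝ} {L b : ℝ} (hc : Continuous f) (hb : ∀ x, |f x| ≤ L)
    (h : ∀ x, b ≤ f x) (s x : ℝ) : b ≤ heat f s x := by
  have h1 : ∫ _z, b ∂(gaussianReal 0 1) ≤ heat f s x :=
    integral_mono (integrable_const b) (heat_integrable hc hb s x) fun z => h _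
  simpa using h1

lemma heat_hasDerivAt_x {f f1 : ℝ → ℝ} {L : ℝ} (hd : ∀ x, HasDerivAt f (f1 x) x)
    (hc1 : Continuous f1) (hb : ∀ x, |f x| ≤ L) (hb1 : ∀ x, |f1 x| ≤ L) (s x : ℝ) :
    HasDerivAt (fun y => heat f s y) (heat f1 s x) x := by
  have hc : Continuous f := continuous_iff_continuousAt.mpr fun x => (hd x).continuousAt
  refine (hasDerivAt_integral_of_dominated_loc_of_deriv_le (s := Set.univ)
    (F := fun y z => f (y + Real.sqrt s * z)) (F' := fun y z => f1 (y + Real.sqrt s * z))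
    (bound := fun _ => L) Filter.univ_mem ?_ (heat_integrable hc hb s x) ?_ ?_
    (integrable_const L) ?_).2
  · exact Filter.Eventually.of_forall fun y => (hc.comp (by fun_prop)).aestronglyMeasurable
  · exact (hc1.comp (by fun_prop)).aestronglyMeasurable
  · exact Filter.Eventually.of_forall fun z y _ => by rw [Real.norm_eq_abs]; exact hb1 _
  · exact Filter.Eventually.of_forall fun z y _ =>
      HasDerivAt.comp_add_const y (Real.sqrt s * z) (hd _)

lemma heat_hasDerivAt_s {f f1 f2 : ℝ → ℝ} {L : ℝ} (h : C2b f f1 f2 L) {s : ℝ} (hs : 0 < s)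
    (x : ℝ) : HasDerivAt (fun r => heat f r x) (heat f2 s x / 2) s := by
  have hc : Continuous f := continuous_iff_continuousAt.mpr fun x => (h.d1 x).continuousAt
  have hc1 : Continuous f1 := continuous_iff_continuousAt.mpr fun x => (h.d2 x).continuousAt
  have hL : 0 ≤ L := (abs_nonneg _).trans (h.b0 0)
  have hz : Integrable (fun z : ℝ => |z|) (gaussianReal 0 1) :=
    ((memLp_id_gaussianReal 1).integrable le_rfl).abs
  have key := (hasDerivAt_integral_of_dominated_loc_of_deriv_le (μ := gaussianReal 0 1)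
    (s := Ioi (s / 2)) (x₀ := s)
    (F := fun r z => f (x + Real.sqrt r * z))
    (F' := fun r z => f1 (x + Real.sqrt r * z) * ((2 * Real.sqrt r)⁻¹ * z))
    (bound := fun z => L * ((2 * Real.sqrt (s / 2))⁻¹ * |z|)) (Ioi_mem_nhds (by linarith))
    ?_ (heat_integrable hc h.b0 s x) ?_ ?_ ?_ ?_).2
  · have e1 : ∫ z, f1 (x + Real.sqrt s * z) * ((2 * Real.sqrt s)⁻¹ * z) ∂(gaussianReal 0 1)
        = heat f2 s x / 2 := by
      have st := Vale.Agent.P367.GT.stein_one (fun z => f1 (x + Real.sqrt s * z))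
        (fun z => f2 (x + Real.sqrt s * z) * Real.sqrt s) (max L (L * Real.sqrt s)) ?_ ?_ ?_
      · have e2 : ∀ z, f1 (x + Real.sqrt s * z) * ((2 * Real.sqrt s)⁻¹ * z)
            = (2 * Real.sqrt s)⁻¹ * (z * f1 (x + Real.sqrt s * z)) := fun z => by ring
        simp_rw [e2]
        rw [integral_const_mul, st, integral_mul_const]
        have hsq : Real.sqrt s ≠ 0 := (Real.sqrt_pos.mpr hs).ne'
        unfold heat
        field_simp
      · intro z
        have h1 : HasDerivAt (fun z : ℝ => x + Real.sqrt s * z) (Real.sqrt s) z := by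
          simpa using ((hasDerivAt_id z).const_mul (Real.sqrt s)).const_add x
        exact (h.d2 (x + Real.sqrt s * z)).comp z h1
      · exact fun z => (h.b1 _).trans (le_max_left _ _)
      · intro z
        rw [abs_mul, abs_of_nonneg (Real.sqrt_nonneg s)]
        exact (mul_le_mul_of_nonneg_right (h.b2 _) (Real.sqrt_nonneg s)).trans (le_max_right _ _)
    rw [e1] at key
    exact key
  · exact Filter.Eventually.of_forall fun r => (hc.comp (by fun_prop)).aestronglyMeasurable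
  · exact ((hc1.comp (by fun_prop)).mul (by fun_prop)).aestronglyMeasurable
  · refine Filter.Eventually.of_forall fun z r hr => ?_
    rw [Real.norm_eq_abs, abs_mul]
    have hr' : s / 2 < r := hr
    have h1 : Real.sqrt (s / 2) ≤ Real.sqrt r := Real.sqrt_le_sqrt hr'.le
    have h2 : 0 < Real.sqrt (s / 2) := Real.sqrt_pos.mpr (by linarith)
    have h3 : |(2 * Real.sqrt r)⁻¹ * z| ≤ (2 * Real.sqrt (s / 2))⁻¹ * |z| := by
      rw [abs_mul, abs_of_nonneg (by positivity : 0 ≤ (2 * Real.sqrt r)⁻¹)]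
      refine mul_le_mul_of_nonneg_right ?_ (abs_nonneg z)
      exact inv_anti₀ (by positivity) (by linarith)
    exact mul_le_mul (h.b1 _) h3 (abs_nonneg _) hL
  · exact (hz.const_mul _).const_mul _
  · refine Filter.Eventually.of_forall fun z r hr => ?_
    have hr' : s / 2 < r := hr
    have hr0 : 0 < r := by linarith
    have h1 : HasDerivAt (fun r : ℝ => x + Real.sqrt r * z) ((2 * Real.sqrt r)⁻¹ * z) r := by
      have h2 := ((Real.hasDerivAt_sqrt hr0.ne').mul_const z).const_add x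
      exact h2.congr_deriv (by rw [one_div])
    exact (h.d1 (x + Real.sqrt r * z)).comp r h1

lemma Sol.mono {U A B : ℝ → ℝ → ℝ} {M M' : ℝ} (h : Sol U A B M) (hM : M ≤ M') : Sol U A B M' :=
  ⟨h.cont, h.dx, h.dxx, h.ds, fun s x => (h.bU s x).trans hM, fun s x => (h.bA s x).trans hM⟩

/-- The transformed solution. -/
noncomputable def U (f : ℝ → ℝ) (s x : ℝ) : ℝ := Psi (heat f s x)

noncomputable def UA (f f1 : ℝ → ℝ) (s x : ℝ) : ℝ := (phi (U f s x))⁻¹ * heat f1 s x

noncomputable def UB (f f1 f2 : ℝ → ℝ) (s x : ℝ) : ℝ :=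
  (phi (U f s x))⁻¹ * heat f2 s x + U f s x * UA f f1 s x ^ 2

theorem exists_sol {f f1 f2 : ℝ → ℝ} {L δ : ℝ} (h : C2b f f1 f2 L) (hδ : 0 < δ)
    (h0 : ∀ x, δ ≤ f x) (h1 : ∀ x, f x ≤ 1 - δ) : ∃ M, Sol (U f) (UA f f1) (UB f f1 f2) M := by
  have hc : Continuous f := continuous_iff_continuousAt.mpr fun x => (h.d1 x).continuousAt
  have hc1 : Continuous f1 := continuous_iff_continuousAt.mpr fun x => (h.d2 x).continuousAt
  have hL : 0 ≤ L := (abs_nonneg _).trans (h.b0 0)
  have hw0 : ∀ s x, δ ≤ heat f s x := fun s x => le_heat hc h.b0 h0 s x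
  have hw1 : ∀ s x, heat f s x ≤ 1 - δ := fun s x => heat_le hc h.b0 h1 s x
  have hp0 : ∀ s x, 0 < heat f s x := fun s x => hδ.trans_le (hw0 s x)
  have hp1 : ∀ s x, heat f s x < 1 := fun s x => by linarith [hw1 s x]
  have hU0 : ∀ s x, Psi δ ≤ U f s x := fun s x => Psi_le_Psi hδ (hw0 s x) (hp1 s x)
  have hU1 : ∀ s x, U f s x ≤ Psi (1 - δ) := fun s x => Psi_le_Psi (hp0 s x) (hw1 s x) (by linarith)
  obtain ⟨c, hc0, hcp⟩ : ∃ c : ℝ, 0 < c ∧ ∀ x ∈ Icc (Psi δ) (Psi (1 - δ)), c ≤ phi x := by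
    obtain ⟨x0, hx0, hmin⟩ := (isCompact_Icc (a := Psi δ) (b := Psi (1 - δ))).exists_isMinOn
      (nonempty_Icc.mpr ((hU0 0 0).trans (hU1 0 0))) phi_continuous.continuousOn
    exact ⟨phi x0, phi_pos x0, fun x hx => hmin hx⟩
  have hphi : ∀ s x, c ≤ phi (U f s x) := fun s x => hcp _ ⟨hU0 s x, hU1 s x⟩
  have hdx : ∀ s x, HasDerivAt (fun y => U f s y) (UA f f1 s x) x := fun s x =>
    (Psi_hasDerivAt (hp0 s x) (hp1 s x)).comp x (heat_hasDerivAt_x h.d1 hc1 h.b0 h.b1 s x)
  refine ⟨max (max |Psi δ| |Psi (1 - δ)|) (c⁻¹ * L), ⟨?_, ?_, ?_, ?_, ?_, ?_⟩⟩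
  · rw [continuous_iff_continuousAt]
    intro p
    exact ContinuousAt.comp (f := fun p : ℝ × ℝ => heat f p.1 p.2)
      (Psi_continuousAt (hp0 p.1 p.2) (hp1 p.1 p.2))
      (heat_continuous hc h.b0).continuousAt
  · intro s x _
    exact hdx s x
  · intro s x _
    have a1 : HasDerivAt (fun y => heat f1 s y) (heat f2 s x) x :=
      heat_hasDerivAt_x h.d2 h.c2 h.b1 h.b2 s x
    have a2 : HasDerivAt (fun y => phi (U f s y)) (-(U f s x * phi (U f s x)) * UA f f1 s x) x :=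
      (phi_hasDerivAt (U f s x)).comp x (hdx s x)
    have a3 := (a2.inv (phi_pos _).ne').mul a1
    refine a3.congr_deriv ?_
    have hne : phi (U f s x) ≠ 0 := (phi_pos _).ne'
    rw [Pi.inv_apply]
    unfold UB UA
    field_simp
    ring
  · intro s x hs
    have a1 := (Psi_hasDerivAt (hp0 s x) (hp1 s x)).comp s (heat_hasDerivAt_s h hs x)
    refine a1.congr_deriv ?_
    unfold UB
    have : Psi (heat f s x) = U f s x := rfl
    rw [this]
    ring
  · intro s x
    refine le_trans ?_ (le_max_left _ _)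
    exact abs_le_max_abs_abs (hU0 s x) (hU1 s x)
  · intro s x
    refine le_trans ?_ (le_max_right _ _)
    unfold UA
    rw [abs_mul, abs_of_pos (inv_pos.mpr (phi_pos _))]
    exact mul_le_mul (inv_anti₀ hc0 (hphi s x)) (heat_abs_le h.b1 s x) (abs_nonneg _) (by positivity)

/-- One-dimensional functional Ehrhard inequality for smooth functions with values in
`[δ, 1 - δ]`. -/
theorem ehrhard_smooth {f f1 f2 g g1 g2 h h1 h2 : ℝ → ℝ} {L δ t : ℝ} (ht0 : 0 < t) (ht1 : t < 1)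
    (hδ : 0 < δ) (cf : C2b f f1 f2 L) (cg : C2b g g1 g2 L) (ch : C2b h h1 h2 L)
    (f0 : ∀ x, δ ≤ f x) (f1' : ∀ x, f x ≤ 1 - δ)
    (g0 : ∀ x, δ ≤ g x) (g1' : ∀ x, g x ≤ 1 - δ)
    (h0 : ∀ x, δ ≤ h x) (h1' : ∀ x, h x ≤ 1 - δ)
    (hle : ∀ x y, (1 - t) * Psi (f x) + t * Psi (g y) ≤ Psi (h ((1 - t) * x + t * y))) :
    (1 - t) * Psi (∫ z, f z ∂(gaussianReal 0 1)) + t * Psi (∫ z, g z ∂(gaussianReal 0 1))
      ≤ Psi (∫ z, h z ∂(gaussianReal 0 1)) := by
  obtain ⟨Mf, sf⟩ := exists_sol cf hδ f0 f1'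
  obtain ⟨Mg, sg⟩ := exists_sol cg hδ g0 g1'
  obtain ⟨Mh, sh⟩ := exists_sol ch hδ h0 h1'
  have key := maxp ht0 ht1
    (sf.mono (le_max_left Mf (max Mg Mh)))
    (sg.mono ((le_max_left Mg Mh).trans (le_max_right Mf (max Mg Mh))))
    (sh.mono ((le_max_right Mg Mh).trans (le_max_right Mf (max Mg Mh))))
    (fun x y => by
      unfold U
      rw [heat_zero, heat_zero, heat_zero]
      exact hle x y) 0 0
  unfold U at key
  rw [heat_one, heat_one, heat_one] at key
  simpa using key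

end Vale.Agent.P262.Ehr
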