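import Vale.Agent.P262.Ehr.Multi

open MeasureTheory ProbabilityTheory Set Filter Topology

namespace Vale.Agent.P262.Ehr

lemma gaussianReal_Iic {w : ℝ} (hw : 0 < w) (v : NNReal) (hv : (v : ℝ) = w ^ 2) (c : ℝ) :
    (gaussianReal 0 v).real (Iic c) = Phi (c / w) := by
  have h1 := gaussianReal_map_const_mul (μ := 0) (v := 1) w
  have h2 : (NNReal.mk (w ^ 2) (sq_nonneg w) * 1 : NNReal) = v := by
    apply NNReal.coe_injective
    rw [hv]
    simp
  rw [mul_zero, h2] at h1
  rw [← h1, map_measureReal_apply (by fun_prop) measurableSet_Iic, Phi]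
  congr 1
  ext x
  simp only [mem_preimage, mem_Iic]
  rw [le_div_iff₀ hw, mul_comm]

/-- `E Phi(c + k S) = Phi(c / sqrt(1 + k^2))`. -/
lemma integral_Phi_affine (c k : ℝ) :
    ∫ s, Phi (c + k * s) ∂(gaussianReal 0 1) = Phi (c / Real.sqrt (1 + k ^ 2)) := by
  have h1 := gaussianReal_map_const_mul (μ := 0) (v := 1) (-k)
  rw [mul_zero] at h1
  set v : NNReal := NNReal.mk ((-k) ^ 2) (sq_nonneg (-k)) * 1 with hv
  have hconv : (gaussianReal 0 v) ∗ (gaussianReal 0 1) = gaussianReal 0 (v + 1) := by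
    rw [gaussianReal_conv_gaussianReal, add_zero]
  have hw : 0 < Real.sqrt (1 + k ^ 2) := Real.sqrt_pos.mpr (by positivity)
  have hvv : ((v + 1 : NNReal) : ℝ) = Real.sqrt (1 + k ^ 2) ^ 2 := by
    rw [Real.sq_sqrt (by positivity)]
    have : (v : ℝ) = k ^ 2 := by simp [hv]
    rw [NNReal.coe_add, this, NNReal.coe_one]
    ring
  rw [← gaussianReal_Iic hw (v + 1) hvv c, ← hconv]
  have hint : Integrable ((Iic c).indicator fun _ : ℝ => (1 : ℝ))
      ((gaussianReal 0 v) ∗ (gaussianReal 0 1)) :=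
    (integrable_const (1 : ℝ)).indicator measurableSet_Iic
  have h2 := integral_conv hint
  rw [integral_indicator measurableSet_Iic] at h2
  simp only [integral_const, MeasurableSet.univ, measureReal_restrict_apply, univ_inter,
    smul_eq_mul, mul_one] at h2
  rw [h2]
  have h3 : ∀ x : ℝ, ∫ y, (Iic c).indicator (fun _ : ℝ => (1 : ℝ)) (x + y) ∂(gaussianReal 0 1)
      = Phi (c - x) := by
    intro x
    have h4 : (fun y : ℝ => (Iic c).indicator (fun _ : ℝ => (1 : ℝ)) (x + y))
        = (Iic (c - x)).indicator fun _ => (1 : ℝ) := by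
      funext y
      by_cases hy : x + y ≤ c
      · rw [indicator_of_mem (by exact hy), indicator_of_mem (by
          show y ≤ c - x; linarith)]
      · rw [indicator_of_notMem (by exact hy), indicator_of_notMem (by
          show ¬ (y ≤ c - x); intro h; exact hy (by linarith))]
    rw [h4, integral_indicator measurableSet_Iic]
    simp [Phi]
  simp_rw [h3]
  have h5 := integral_map (μ := gaussianReal 0 1) (φ := fun x : ℝ => -k * x)
    (f := fun x : ℝ => Phi (c - x)) (by fun_prop)
    (Phi_continuous.comp (continuous_const.sub continuous_id)).aestronglyMeasurable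
  rw [← h1, h5]
  refine integral_congr_ae (Filter.Eventually.of_forall fun s => ?_)
  show Phi (c + k * s) = Phi (c - -k * s)
  congr 1
  ring

/-- Supporting lines of a nondecreasing concave function. -/
lemma exists_support {F : ℝ → ℝ} {D : Set ℝ} (hF : ConcaveOn ℝ D F) {s0 t s1 : ℝ} (h0 : s0 ∈ D)
    (ht : t ∈ D) (h1 : s1 ∈ D) (h0t : s0 < t) (ht1 : t < s1)
    (hmono : ∀ x ∈ D, ∀ y ∈ D, x ≤ y → F x ≤ F y) :
    ∃ k : ℝ, 0 ≤ k ∧ ∀ s ∈ D, F s ≤ F t + k * (s - t) := by
  set R : Set ℝ := {r | ∃ s ∈ D, t < s ∧ r = (F s - F t) / (s - t)} with hR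
  have hne : R.Nonempty := ⟨_, s1, h1, ht1, rfl⟩
  have hub : ∀ s ∈ D, s < t → ∀ r ∈ R, r ≤ (F t - F s) / (t - s) := by
    rintro s hs hst r ⟨s', hs', hts', rfl⟩
    exact hF.slope_anti_adjacent hs hs' hst hts'
  have hbdd : BddAbove R := ⟨_, fun r hr => hub s0 h0 h0t r hr⟩
  refine ⟨sSup R, ?_, fun s hs => ?_⟩
  · refine le_trans ?_ (le_csSup hbdd ⟨s1, h1, ht1, rfl⟩)
    exact div_nonneg (by linarith [hmono t ht s1 h1 ht1.le]) (by linarith)
  · rcases lt_trichotomy s t with h | h | h
    · have h2 : sSup R ≤ (F t - F s) / (t - s) := csSup_le hne fun r hr => hub s hs h r hr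
      rw [le_div_iff₀ (by linarith)] at h2
      nlinarith
    · rw [h]; simp
    · have h2 : (F s - F t) / (s - t) ≤ sSup R := le_csSup hbdd ⟨s, hs, h, rfl⟩
      rw [div_le_iff₀ (by linarith)] at h2
      linarith

lemma Phi_neg (x : ℝ) : Phi (-x) = 1 - Phi x := by
  have h1 := gaussianReal_map_neg (μ := 0) (v := 1)
  rw [neg_zero] at h1
  have h2 : Phi (-x) = (gaussianReal 0 1).real (Ici x) := by
    conv_lhs => rw [Phi, ← h1]
    rw [map_measureReal_apply (by fun_prop) measurableSet_Iic]
    congr 1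
    ext y
    simp only [mem_preimage, mem_Iic, mem_Ici, neg_le_neg_iff]
  have h3 : (gaussianReal 0 1).real (Ici x) = (gaussianReal 0 1).real (Ioi x) :=
    measureReal_congr (gaussianReal_ac.ae_eq (Ioi_ae_eq_Ici (μ := volume))).symm
  rw [h2, h3, Phi, ← compl_Iic, probReal_compl_eq_one_sub measurableSet_Iic]

lemma Phi_zero : Phi 0 = 1 / 2 := by
  have := Phi_neg 0
  rw [neg_zero] at this
  linarith

lemma gaussian_Ici (x : ℝ) : (gaussianReal 0 1).real (Ici x) = 1 - Phi x := by
  have h3 : (gaussianReal 0 1).real (Ici x) = (gaussianReal 0 1).real (Ioi x) :=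
    measureReal_congr (gaussianReal_ac.ae_eq (Ioi_ae_eq_Ici (μ := volume))).symm
  rw [h3, Phi, ← compl_Iic, probReal_compl_eq_one_sub measurableSet_Iic]

/-- One-dimensional core of Lemma E. -/
theorem lemE_one {u : ℝ → ℝ} (hu : PhiConcave u) (hmono : Monotone u)
    (hrc : ∀ t δ : ℝ, 0 < δ → ∃ t', t < t' ∧ u t' < u t + δ) {a t : ℝ} (ha : 0 ≤ a) (ht : 0 ≤ t)
    (hint : Phi a ≤ ∫ s, u s ∂(gaussianReal 0 1)) : Phi a ≤ u t := by
  by_contra hcon
  rw [not_le] at hcon
  obtain ⟨t', htt', hut'⟩ := hrc t (Phi a - u t) (by linarith)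
  have hlt : u t' < Phi a := by linarith
  have ht' : 0 < t' := by linarith
  have hPa : 1 / 2 ≤ Phi a := by
    rw [← Phi_zero]
    exact Phi_strictMono.monotone ha
  have hi : Integrable u (gaussianReal 0 1) := hu.qc.integrable hu.nonneg hu.le_one
  -- if `u` vanishes to the left of `t'`
  have hleft : ∃ s0, s0 < t' ∧ 0 < u s0 := by
    by_contra hno
    push Not at hno
    have h0 : ∀ s, u s ≤ (Ici t').indicator (fun _ => (1 : ℝ)) s := by
      intro s
      by_cases hs : t' ≤ s
      · rw [indicator_of_mem (by exact hs)]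
        exact hu.le_one s
      · rw [indicator_of_notMem (by exact hs)]
        exact hno s (not_le.mp hs)
    have h1 : ∫ s, u s ∂(gaussianReal 0 1) ≤
        ∫ s, (Ici t').indicator (fun _ => (1 : ℝ)) s ∂(gaussianReal 0 1) :=
      integral_mono hi ((integrable_const _).indicator measurableSet_Ici) h0
    rw [integral_indicator measurableSet_Ici] at h1
    simp only [integral_const, MeasurableSet.univ, measureReal_restrict_apply, univ_inter,
      smul_eq_mul, mul_one] at h1
    rw [gaussian_Ici] at h1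
    have h2 : Phi 0 < Phi t' := Phi_strictMono ht'
    rw [Phi_zero] at h2
    linarith
  obtain ⟨s0, hs0, hus0⟩ := hleft
  have hpos : ∀ s, s0 ≤ s → 0 < u s := fun s hs => hus0.trans_le (hmono hs)
  have hlt1 : ∀ s, u s < 1 := by
    intro s
    by_contra hs
    rw [not_lt] at hs
    have hs1 : t' < s := by
      by_contra h
      have := hmono (not_lt.mp h)
      linarith [Phi_lt_one a]
    have h2 := hu.comb_le s0 s ((t' - s0) / (s - s0)) (div_pos (by linarith) (by linarith))
      ((div_lt_one (by linarith)).mpr (by linarith))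
    rw [comb_one hus0 (by linarith) (Or.inr hs)] at h2
    have h3 : (1 - (t' - s0) / (s - s0)) • s0 + ((t' - s0) / (s - s0)) • s = t' := by
      have : s - s0 ≠ 0 := by linarith
      simp only [smul_eq_mul]
      field_simp
      ring
    rw [h3] at h2
    linarith [Phi_lt_one a]
  have hDc : Convex ℝ {s | 0 < u s} := hu.convex 0
  have hF : ConcaveOn ℝ {s | 0 < u s} (fun s => Psi (u s)) :=
    hu.concaveOn hDc (fun x hx => hx) fun x _ => hlt1 x
  obtain ⟨k, hk, hsup⟩ := exists_support hF (s0 := s0) (t := t') (s1 := t' + 1) hus0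
    (hpos t' hs0.le) (hpos (t' + 1) (by linarith)) hs0 (by linarith)
    (fun x hx y _ hxy => Psi_le_Psi hx (hmono hxy) (hlt1 y))
  set c : ℝ := Psi (u t') - k * t' with hc
  have hle : ∀ s, u s ≤ Phi (c + k * s) := by
    intro s
    by_cases hs : 0 < u s
    · have h1 := Phi_strictMono.monotone (hsup s hs)
      rw [Phi_Psi hs (hlt1 s)] at h1
      have e : c + k * s = Psi (u t') + k * (s - t') := by rw [hc]; ring
      rw [e]
      exact h1
    · exact (not_lt.mp hs).trans (Phi_pos _).le
  have hiP : Integrable (fun s => Phi (c + k * s)) (gaussianReal 0 1) := by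
    refine (integrable_const (1 : ℝ)).mono'
      (Phi_continuous.comp (by fun_prop)).aestronglyMeasurable ?_
    exact Filter.Eventually.of_forall fun x => by
      rw [Real.norm_eq_abs, abs_of_nonneg (Phi_pos _).le]; exact (Phi_lt_one _).le
  have h2 : ∫ s, u s ∂(gaussianReal 0 1) ≤ ∫ s, Phi (c + k * s) ∂(gaussianReal 0 1) :=
    integral_mono hi hiP hle
  rw [integral_Phi_affine] at h2
  have h3 := Phi_strictMono.le_iff_le.mp (hint.trans h2)
  have hw : 1 ≤ Real.sqrt (1 + k ^ 2) := by
    rw [Real.one_le_sqrt]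
    nlinarith [sq_nonneg k]
  rw [le_div_iff₀ (by linarith)] at h3
  have h4 : a ≤ a * Real.sqrt (1 + k ^ 2) := by nlinarith
  have h5 : a ≤ Psi (u t') := by
    have : 0 ≤ k * t' := mul_nonneg hk ht'.le
    rw [hc] at h3
    linarith
  have h6 := Phi_strictMono.monotone h5
  rw [Phi_Psi (hpos t' hs0.le) (hlt1 t')] at h6
  linarith

lemma measure_threshold {b : ℝ} (h0 : 0 ≤ b) (h1 : b ≤ 1) :
    (gaussianReal 0 1).real {s | Phi (-s) ≤ b} = b := by
  rcases h0.lt_or_eq with h | h
  · rcases h1.lt_or_eq with h' | h'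
    · have e : {s : ℝ | Phi (-s) ≤ b} = Ici (-Psi b) := by
        ext s
        show Phi (-s) ≤ b ↔ -Psi b ≤ s
        rw [← Phi_Psi h h', Phi_strictMono.le_iff_le, Phi_Psi h h']
        constructor <;> intro h <;> linarith
      rw [e, gaussian_Ici, Phi_neg, Phi_Psi h h']
      ring
    · have e : {s : ℝ | Phi (-s) ≤ b} = univ := by
        ext s
        show Phi (-s) ≤ b ↔ True
        rw [h']
        simp [(Phi_lt_one (-s)).le]
      rw [e, h']
      simp
  · have e : {s : ℝ | Phi (-s) ≤ b} = ∅ := by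
      ext s
      show Phi (-s) ≤ b ↔ False
      rw [← h]
      simp [Phi_pos (-s)]
    rw [e, ← h]
    simp

/-- The threshold set in the space `R × R^n`. -/
lemma convex_threshold {E : Type*} [AddCommGroup E] [Module ℝ E] {h : E → ℝ}
    (hh : PhiConcave h) : Convex ℝ {p : ℝ × E | Phi (-p.1) ≤ h p.2} := by
  intro p hp q hq a b ha hb hab
  show Phi (-(a * p.1 + b * q.1)) ≤ h (a • p.2 + b • q.2)
  have hp' : Phi (-p.1) ≤ h p.2 := hp
  have hq' : Phi (-q.1) ≤ h q.2 := hq
  rcases hb.lt_or_eq with hb0 | hb0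
  · rcases ha.lt_or_eq with ha0 | ha0
    · have ea : a = 1 - b := by linarith
      have h1 := hh.comb_le p.2 q.2 b hb0 (by linarith)
      have h2 := comb_mono (t := b) hb0 (by linarith) hp' hq'
      rw [comb_mid (Phi_pos _) (Phi_lt_one _) (Phi_pos _) (Phi_lt_one _), Psi_Phi, Psi_Phi] at h2
      rw [ea]
      refine le_trans (le_of_eq ?_) (h2.trans h1)
      congr 1
      ring
    · have eb : b = 1 := by linarith
      rw [← ha0, eb]
      simpa using hq'
  · have ea : a = 1 := by linarith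
    rw [← hb0, ea]
    simpa using hp'

/-- **Lemma E** (lossless thresholds). If `h = Phi ∘ f` with `f` concave (values `±∞` allowed),
`G` is a standard Gaussian vector and `E h(G) ≥ Phi(a)` with `a ≥ 0`, then
`P(f(G) ≥ -t) ≥ Phi(a)` for every `t ≥ 0`. -/
theorem lemE {n : ℕ} {h : (Fin n → ℝ) → ℝ} (hh : PhiConcave h) {a t : ℝ} (ha : 0 ≤ a)
    (ht : 0 ≤ t) (hint : Phi a ≤ ∫ g, h g ∂(gam n)) :
    Phi a ≤ (gam n).real {g | Phi (-t) ≤ h g} := by
  have hK := convex_threshold hh
  set K : Set (ℝ × (Fin n → ℝ)) := {p | Phi (-p.1) ≤ h p.2} with hKdef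
  have hu : PhiConcave (fun s : ℝ => (gam n).real {g | (s, g) ∈ K}) := phiConcave_section hK
  have hsub : ∀ s s' : ℝ, s ≤ s' → {g | (s, g) ∈ K} ⊆ {g | (s', g) ∈ K} := by
    intro s s' hs g hg
    have hg' : Phi (-s) ≤ h g := hg
    exact (Phi_strictMono.monotone (by linarith : -s' ≤ -s)).trans hg'
  have hmono : Monotone (fun s : ℝ => (gam n).real {g | (s, g) ∈ K}) := fun s s' hs =>
    measureReal_mono (hsub s s' hs)
  have hnull : ∀ s : ℝ, NullMeasurableSet {g | (s, g) ∈ K} (gam n) := by
    intro s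
    have : {g | (s, g) ∈ K} = {g | Phi (-s) ≤ h g} := rfl
    rw [this]
    exact convex_nullMeasurable (hh.convex_le _)
  have hrc : ∀ t δ : ℝ, 0 < δ → ∃ t', t < t' ∧
      (gam n).real {g | (t', g) ∈ K} < (gam n).real {g | (t, g) ∈ K} + δ := by
    intro t δ hδ
    have hT := tendsto_measure_iInter_atTop (μ := gam n)
      (s := fun m : ℕ => {g | (t + 1 / ((m : ℝ) + 1), g) ∈ K}) (fun m => hnull _)
      (fun m m' hm => hsub _ _ (by
        have : 1 / ((m' : ℝ) + 1) ≤ 1 / ((m : ℝ) + 1) :=
          one_div_le_one_div_of_le (by positivity) (by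
            have : (m : ℝ) ≤ m' := by exact_mod_cast hm
            linarith)
        linarith))
      ⟨0, measure_ne_top _ _⟩
    have hI : ⋂ m : ℕ, {g | (t + 1 / ((m : ℝ) + 1), g) ∈ K} = {g | (t, g) ∈ K} := by
      ext g
      rw [mem_iInter]
      constructor
      · intro hg
        show Phi (-t) ≤ h g
        have h1 : Tendsto (fun m : ℕ => Phi (-(t + 1 / ((m : ℝ) + 1)))) atTop (𝓝 (Phi (-t))) := by
          refine (Phi_continuous.tendsto _).comp ?_
          have h2 := (tendsto_one_div_add_atTop_nhds_zero_nat (𝕜 := ℝ)).const_add t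
          rw [add_zero] at h2
          exact h2.neg
        exact le_of_tendsto' h1 fun m => hg m
      · intro hg m
        exact hsub t _ (by
          have : 0 ≤ 1 / ((m : ℝ) + 1) := by positivity
          linarith) hg
    rw [hI] at hT
    have hT2 := (ENNReal.tendsto_toReal (measure_ne_top (gam n) {g | (t, g) ∈ K})).comp hT
    have hev := hT2.eventually (gt_mem_nhds (by
      show (gam n {g | (t, g) ∈ K}).toReal < (gam n).real {g | (t, g) ∈ K} + δ
      have : (gam n {g | (t, g) ∈ K}).toReal = (gam n).real {g | (t, g) ∈ K} := rfl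
      linarith))
    obtain ⟨m, hm⟩ := hev.exists
    exact ⟨t + 1 / ((m : ℝ) + 1), by
      have : 0 < 1 / ((m : ℝ) + 1) := by positivity
      linarith, hm⟩
  -- Fubini
  have hKnull : NullMeasurableSet K ((gaussianReal 0 1).prod (gam n)) := by
    have : (volume : Measure (ℝ × (Fin n → ℝ))).IsAddHaarMeasure := by
      rw [Measure.volume_eq_prod]
      infer_instance
    have h1 : NullMeasurableSet K (volume : Measure (ℝ × (Fin n → ℝ))) :=
      hK.nullMeasurableSet volume
    exact h1.mono_ac (gaussianReal_ac.prod (gam_ac n))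
  have hKi : Integrable (fun p : ℝ × (Fin n → ℝ) => K.indicator (fun _ => (1 : ℝ)) (p.1, p.2))
      ((gaussianReal 0 1).prod (gam n)) := by
    have : Integrable (K.indicator (fun _ => (1 : ℝ))) ((gaussianReal 0 1).prod (gam n)) :=
      (integrable_const (1 : ℝ)).indicator₀ hKnull
    exact this
  have hswap := integral_integral_swap
    (f := fun (s : ℝ) (g : Fin n → ℝ) => K.indicator (fun _ => (1 : ℝ)) (s, g)) hKi
  have hL : ∀ s : ℝ, ∫ g, K.indicator (fun _ => (1 : ℝ)) (s, g) ∂(gam n)
      = (gam n).real {g | (s, g) ∈ K} := by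
    intro s
    have e : (fun g => K.indicator (fun _ => (1 : ℝ)) (s, g))
        = {g | (s, g) ∈ K}.indicator fun _ => (1 : ℝ) := rfl
    rw [e, integral_indicator₀ (hnull s)]
    simp
  have hR : ∀ g : Fin n → ℝ, ∫ s, K.indicator (fun _ => (1 : ℝ)) (s, g) ∂(gaussianReal 0 1)
      = h g := by
    intro g
    have e : (fun s : ℝ => K.indicator (fun _ => (1 : ℝ)) (s, g))
        = {s | Phi (-s) ≤ h g}.indicator fun _ => (1 : ℝ) := rfl
    have hm : MeasurableSet {s : ℝ | Phi (-s) ≤ h g} :=
      (isClosed_le (Phi_continuous.comp continuous_neg) continuous_const).measurableSet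
    rw [e, integral_indicator hm]
    simp only [integral_const, MeasurableSet.univ, measureReal_restrict_apply, univ_inter,
      smul_eq_mul, mul_one]
    exact measure_threshold (hh.nonneg g) (hh.le_one g)
  simp_rw [hL, hR] at hswap
  rw [← hswap] at hint
  exact lemE_one hu hmono hrc ha ht hint

/-- Lemma E for real valued concave functions. -/
theorem lemE_concave {n : ℕ} {f : (Fin n → ℝ) → ℝ} (hf : ConcaveOn ℝ univ f) {a t : ℝ}
    (ha : 0 ≤ a) (ht : 0 ≤ t) (hint : Phi a ≤ ∫ g, Phi (f g) ∂(gam n)) :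
    Phi a ≤ (gam n).real {g | -t ≤ f g} := by
  have h := lemE (phiConcave_Phi hf) ha ht hint
  have e : {g | Phi (-t) ≤ Phi (f g)} = {g | -t ≤ f g} := by
    ext g
    exact Phi_strictMono.le_iff_le
  rwa [e] at h

end Vale.Agent.P262.Ehr
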