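import Vale.Agent.P262.Ehr.Comb

open MeasureTheory ProbabilityTheory Set Filter Topology

namespace Vale.Agent.P262.Ehr

/-- Functions `u : E → [0, 1]` for which `Phi⁻¹ ∘ u` is concave (values `0, 1` allowed). -/
structure PhiConcave {E : Type*} [AddCommGroup E] [Module ℝ E] (u : E → ℝ) : Prop where
  nonneg : ∀ x, 0 ≤ u x
  le_one : ∀ x, u x ≤ 1
  comb_le : ∀ x y t, 0 < t → t < 1 → comb t (u x) (u y) ≤ u ((1 - t) • x + t • y)

section basic
variable {E F : Type*} [AddCommGroup E] [Module ℝ E] [AddCommGroup F] [Module ℝ F]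

lemma PhiConcave.comp {u : E → ℝ} (h : PhiConcave u) (f : F → E)
    (hf : ∀ (x y : F) (t : ℝ), 0 < t → t < 1 → f ((1 - t) • x + t • y) = (1 - t) • f x + t • f y) :
    PhiConcave (fun x => u (f x)) :=
  ⟨fun x => h.nonneg _, fun x => h.le_one _, fun x y t ht0 ht1 => by
    rw [hf x y t ht0 ht1]
    exact h.comb_le _ _ t ht0 ht1⟩

lemma PhiConcave.min_le {u : E → ℝ} (h : PhiConcave u) (x y : E) {t : ℝ} (ht0 : 0 ≤ t)
    (ht1 : t ≤ 1) : min (u x) (u y) ≤ u ((1 - t) • x + t • y) := by
  rcases ht0.lt_or_eq with h0 | rfl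
  · rcases ht1.lt_or_eq with h1 | rfl
    · exact (min_le_comb h0 h1 (h.nonneg x) (h.le_one x) (h.nonneg y)).trans
        (h.comb_le x y t h0 h1)
    · simp
  · simp

lemma PhiConcave.convex {u : E → ℝ} (h : PhiConcave u) (c : ℝ) : Convex ℝ {x | c < u x} := by
  intro x hx y hy a b ha hb hab
  have e : a = 1 - b := by linarith
  rw [e]
  exact lt_of_lt_of_le (lt_min hx hy) (h.min_le x y hb (by linarith))

lemma PhiConcave.convex_le {u : E → ℝ} (h : PhiConcave u) (c : ℝ) : Convex ℝ {x | c ≤ u x} := by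
  intro x hx y hy a b ha hb hab
  have e : a = 1 - b := by linarith
  rw [e]
  exact le_trans (le_min hx hy) (h.min_le x y hb (by linarith))

lemma PhiConcave.qc {u : ℝ → ℝ} (h : PhiConcave u) : QC u := by
  intro x y z hxy hyz
  rcases (hxy.trans hyz).lt_or_eq with hlt | rfl
  · have h1 := h.min_le x z (t := (y - x) / (z - x)) (div_nonneg (by linarith) (by linarith))
      ((div_le_one (by linarith)).mpr (by linarith))
    have h2 : (1 - (y - x) / (z - x)) • x + ((y - x) / (z - x)) • z = y := by
      have : z - x ≠ 0 := by linarith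
      simp only [smul_eq_mul]
      field_simp
      ring
    rwa [h2] at h1
  · have : x = y := le_antisymm hxy hyz
    rw [this]
    simp

lemma PhiConcave.slice {u : E × F → ℝ} (h : PhiConcave u) (x : E) :
    PhiConcave (fun z => u (x, z)) :=
  h.comp (fun z => (x, z)) fun y z t _ _ => by
    ext1
    · show x = (1 - t) • x + t • x
      rw [← add_smul]
      simp
    · rfl

end basic

/-- Integrating out one Gaussian variable. -/
theorem PhiConcave.marg_one {E : Type*} [AddCommGroup E] [Module ℝ E] {u : E × ℝ → ℝ}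
    (h : PhiConcave u) : PhiConcave (fun x => ∫ z, u (x, z) ∂(gaussianReal 0 1)) := by
  have q : ∀ x, QC fun z => u (x, z) := fun x => (h.slice x).qc
  have hi : ∀ x, Integrable (fun z => u (x, z)) (gaussianReal 0 1) := fun x =>
    (q x).integrable (fun z => h.nonneg _) fun z => h.le_one _
  refine ⟨fun x => integral_nonneg fun z => h.nonneg _,
    fun x => (integral_mem (hi x) (fun z => h.nonneg _) fun z => h.le_one _).2,
    fun x y t ht0 ht1 => ?_⟩
  exact ehrhard_one ht0 ht1 (q x) (q y) (q _) (fun z => h.nonneg _) (fun z => h.le_one _)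
    (fun z => h.nonneg _) (fun z => h.le_one _) (fun z => h.nonneg _) (fun z => h.le_one _)
    fun a b => h.comb_le (x, a) (y, b) t ht0 ht1

/-- The standard Gaussian measure on `Fin n → ℝ`. -/
noncomputable abbrev gam (n : ℕ) : Measure (Fin n → ℝ) :=
  Measure.pi fun _ : Fin n => gaussianReal 0 1

lemma gaussianReal_ac : (gaussianReal 0 1 : Measure ℝ) ≪ volume := by
  rw [gaussianReal_of_var_ne_zero _ one_ne_zero]
  exact withDensity_absolutelyContinuous _ _

lemma gam_ac (n : ℕ) : gam n ≪ (volume : Measure (Fin n → ℝ)) := by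
  induction n with
  | zero =>
    rw [gam, volume_pi, Measure.pi_of_empty, Measure.pi_of_empty]
  | succ n ih =>
    have h1 := (measurePreserving_piFinSuccAbove (fun _ : Fin (n + 1) => gaussianReal 0 1) 0)
    have h2 := (measurePreserving_piFinSuccAbove (fun _ : Fin (n + 1) => (volume : Measure ℝ)) 0)
    have e1 := (h1.symm _).map_eq
    have e2 := (h2.symm _).map_eq
    rw [gam, volume_pi, ← e1, ← e2]
    refine Measure.AbsolutelyContinuous.map ?_ (MeasurableEquiv.measurable _)
    exact gaussianReal_ac.prod ih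

/-- A `Phi`-concave function of a Gaussian vector is a.e. measurable. -/
lemma PhiConcave.aemeasurable {n : ℕ} {u : (Fin n → ℝ) → ℝ} (h : PhiConcave u) :
    AEMeasurable u (gam n) := by
  have hn : NullMeasurable u (gam n) := by
    have key : ∀ c : ℝ, NullMeasurableSet (u ⁻¹' Ioi c) (gam n) := fun c =>
      ((h.convex c).nullMeasurableSet volume).mono_ac (gam_ac n)
    have := @measurable_of_Ioi ℝ (NullMeasurableSpace (Fin n → ℝ) (gam n)) _ _ _ _ _ _ _ u key
    exact fun s hs => this hs
  exact hn.aemeasurable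

lemma PhiConcave.integrable {n : ℕ} {u : (Fin n → ℝ) → ℝ} (h : PhiConcave u) :
    Integrable u (gam n) := by
  refine (integrable_const (1 : ℝ)).mono' h.aemeasurable.aestronglyMeasurable ?_
  exact Filter.Eventually.of_forall fun x => by
    rw [Real.norm_eq_abs, abs_of_nonneg (h.nonneg x)]; exact h.le_one x

/-- Integration over `Fin (n + 1) → ℝ` coordinate by coordinate. -/
lemma integral_gam_succ {n : ℕ} {u : (Fin (n + 1) → ℝ) → ℝ} (hu : Integrable u (gam (n + 1))) :
    ∫ g, u g ∂(gam (n + 1)) = ∫ z, ∫ g, u (Fin.cons z g) ∂(gam n) ∂(gaussianReal 0 1) := by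
  have h1 := (measurePreserving_piFinSuccAbove (fun _ : Fin (n + 1) => gaussianReal 0 1) 0)
  have h2 := h1.symm _
  have e1 := h2.integral_comp (MeasurableEquiv.measurableEmbedding _) u
  have e2 := (h2.integrable_comp_emb (MeasurableEquiv.measurableEmbedding _)).mpr hu
  rw [gam, ← e1]
  refine (integral_prod _ e2).trans ?_
  refine integral_congr_ae (Filter.Eventually.of_forall fun z => ?_)
  refine integral_congr_ae (Filter.Eventually.of_forall fun g => ?_)
  have e3 : (MeasurableEquiv.piFinSuccAbove (fun _ : Fin (n + 1) => ℝ) 0).symm (z, g)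
      = Fin.cons z g := by
    funext i
    refine Fin.cases ?_ (fun j => ?_) i
    · simp [MeasurableEquiv.piFinSuccAbove, Fin.insertNthEquiv]
    · simp [MeasurableEquiv.piFinSuccAbove, Fin.insertNthEquiv]
  show u ((MeasurableEquiv.piFinSuccAbove (fun _ : Fin (n + 1) => ℝ) 0).symm (z, g)) = _
  rw [e3]

/-- **Ehrhard's inequality, marginal form**: integrating out a standard Gaussian vector
preserves concavity of `Phi⁻¹ ∘ u`. -/
theorem PhiConcave.marg (n : ℕ) : ∀ {E : Type*} [AddCommGroup E] [Module ℝ E]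
    {u : E × (Fin n → ℝ) → ℝ}, PhiConcave u →
    PhiConcave (fun x => ∫ g, u (x, g) ∂(gam n)) := by
  induction n with
  | zero =>
    intro E _ _ u h
    have e : (fun x => ∫ g, u (x, g) ∂(gam 0)) = fun x => u (x, fun i => Fin.elim0 i) := by
      funext x
      rw [gam, Measure.pi_of_empty, integral_dirac]
      congr 2
    rw [e]
    exact h.comp (fun x => (x, fun i => Fin.elim0 i)) fun x y t _ _ =>
      Prod.ext rfl (Subsingleton.elim _ _)
  | succ n ih =>
    intro E _ _ u h
    have e : (fun x => ∫ g, u (x, g) ∂(gam (n + 1)))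
        = fun x => ∫ z, ∫ g, u (x, Fin.cons z g) ∂(gam n) ∂(gaussianReal 0 1) := by
      funext x
      exact integral_gam_succ (h.slice x).integrable
    rw [e]
    have h1 : PhiConcave (fun p : (E × ℝ) × (Fin n → ℝ) => u (p.1.1, Fin.cons p.1.2 p.2)) := by
      refine h.comp (fun p : (E × ℝ) × (Fin n → ℝ) => (p.1.1, Fin.cons p.1.2 p.2))
        fun x y t _ _ => ?_
      refine Prod.ext rfl (funext fun i => ?_)
      refine Fin.cases ?_ (fun j => ?_) i
      · rfl
      · rfl
    exact (ih h1).marg_one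

/-- The indicator of a convex set is `Phi`-concave. -/
lemma phiConcave_indicator {E : Type*} [AddCommGroup E] [Module ℝ E] {K : Set E}
    (hK : Convex ℝ K) : PhiConcave (K.indicator fun _ => (1 : ℝ)) := by
  classical
  refine ⟨fun x => indicator_nonneg (fun _ _ => zero_le_one) x, fun x => ?_,
    fun x y t ht0 ht1 => ?_⟩
  · by_cases hx : x ∈ K
    · rw [indicator_of_mem hx]
    · rw [indicator_of_notMem hx]
      exact zero_le_one
  · by_cases hx : x ∈ K
    · by_cases hy : y ∈ K
      · have hm : (1 - t) • x + t • y ∈ K := hK hx hy (by linarith) ht0.le (by ring)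
        rw [indicator_of_mem hm]
        exact comb_le_one _ _ _
      · rw [indicator_of_notMem hy, comb_zero (Or.inr le_rfl)]
        exact indicator_nonneg (fun _ _ => zero_le_one) _
    · rw [indicator_of_notMem hx, comb_zero (Or.inl le_rfl)]
      exact indicator_nonneg (fun _ _ => zero_le_one) _

lemma convex_nullMeasurable {n : ℕ} {K : Set (Fin n → ℝ)} (hK : Convex ℝ K) :
    NullMeasurableSet K (gam n) :=
  (hK.nullMeasurableSet volume).mono_ac (gam_ac n)

lemma integral_indicator_convex {n : ℕ} {K : Set (Fin n → ℝ)} (hK : Convex ℝ K) :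
    ∫ g, K.indicator (fun _ => (1 : ℝ)) g ∂(gam n) = (gam n).real K := by
  rw [integral_indicator₀ (convex_nullMeasurable hK)]
  simp

/-- **Ehrhard's inequality for sections of convex sets.** -/
theorem phiConcave_section {E : Type*} [AddCommGroup E] [Module ℝ E] {n : ℕ}
    {K : Set (E × (Fin n → ℝ))} (hK : Convex ℝ K) :
    PhiConcave (fun x => (gam n).real {g | (x, g) ∈ K}) := by
  have h := (phiConcave_indicator hK).marg n
  have e : (fun x => ∫ g, K.indicator (fun _ => (1 : ℝ)) (x, g) ∂(gam n))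
      = fun x => (gam n).real {g | (x, g) ∈ K} := by
    funext x
    have hx : Convex ℝ {g | (x, g) ∈ K} := by
      intro a ha b hb p q hp hq hpq
      have := hK ha hb hp hq hpq
      have e2 : p • (x, a) + q • (x, b) = (x, p • a + q • b) := by
        ext1
        · show p • x + q • x = x
          rw [← add_smul, hpq, one_smul]
        · rfl
      rw [e2] at this
      exact this
    rw [← integral_indicator_convex hx]
    rfl
  rw [e] at h
  exact h

open Pointwise in
/-- **Ehrhard's inequality** for two convex sets. -/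
theorem ehrhard_sets {n : ℕ} {A B : Set (Fin n → ℝ)} (hA : Convex ℝ A) (hB : Convex ℝ B) {t : ℝ}
    (ht0 : 0 < t) (ht1 : t < 1) :
    comb t ((gam n).real A) ((gam n).real B) ≤ (gam n).real ((1 - t) • A + t • B) := by
  rcases A.eq_empty_or_nonempty with rfl | hAn
  · rw [comb_zero (Or.inl (by simp))]
    exact measureReal_nonneg
  rcases B.eq_empty_or_nonempty with rfl | hBn
  · rw [comb_zero (Or.inr (by simp))]
    exact measureReal_nonneg
  set K : Set (ℝ × (Fin n → ℝ)) := {p | 0 ≤ p.1 ∧ p.1 ≤ 1 ∧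
    ∃ a ∈ A, ∃ b ∈ B, p.2 = (1 - p.1) • a + p.1 • b} with hKdef
  have hK : Convex ℝ K := by
    rintro ⟨r, g⟩ ⟨hr0, hr1, a, ha, b, hb, hg⟩ ⟨s, k⟩ ⟨hs0, hs1, a', ha', b', hb', hk⟩ p q hp hq hpq
    simp only at hr0 hr1 hg hs0 hs1 hk
    refine ⟨?_, ?_, ?_⟩
    · show 0 ≤ p * r + q * s
      positivity
    · show p * r + q * s ≤ 1
      nlinarith
    · show ∃ a ∈ A, ∃ b ∈ B, p • g + q • k = (1 - (p * r + q * s)) • a + (p * r + q * s) • b
      have mix : ∀ (S : Set (Fin n → ℝ)), Convex ℝ S → ∀ c c' : ℝ, 0 ≤ c → 0 ≤ c' → ∀ x ∈ S, ∀ y ∈ S,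
          ∃ z ∈ S, c • x + c' • y = (c + c') • z := by
        intro S hS c c' hc hc' x hx y hy
        rcases (add_nonneg hc hc').lt_or_eq with h | h
        · refine ⟨(c / (c + c')) • x + (c' / (c + c')) • y, hS hx hy (by positivity) (by positivity)
            (by field_simp), ?_⟩
          rw [smul_add, smul_smul, smul_smul, mul_div_cancel₀ _ h.ne', mul_div_cancel₀ _ h.ne']
        · have h1 : c = 0 := by linarith
          have h2 : c' = 0 := by linarith
          exact ⟨x, hx, by simp [h1, h2]⟩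
      obtain ⟨x, hx, hx2⟩ := mix A hA (p * (1 - r)) (q * (1 - s)) (mul_nonneg hp (by linarith))
        (mul_nonneg hq (by linarith)) a ha a' ha'
      obtain ⟨y, hy, hy2⟩ := mix B hB (p * r) (q * s) (mul_nonneg hp hr0) (mul_nonneg hq hs0)
        b hb b' hb'
      refine ⟨x, hx, y, hy, ?_⟩
      have e1 : (1 : ℝ) - (p * r + q * s) = p * (1 - r) + q * (1 - s) := by
        have : q = 1 - p := by linarith
        rw [this]; ring
      rw [e1, ← hx2, ← hy2, hg, hk]
      module
  have h := (phiConcave_section hK).comb_le (0 : ℝ) (1 : ℝ) t ht0 ht1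
  have e0 : {g | ((0 : ℝ), g) ∈ K} = A := by
    ext g
    constructor
    · rintro ⟨-, -, a, ha, b, hb, hg⟩
      simp only [sub_zero, one_smul, zero_smul, add_zero] at hg
      rw [hg]; exact ha
    · intro hg
      obtain ⟨b, hb⟩ := hBn
      exact ⟨le_rfl, zero_le_one, g, hg, b, hb, by simp⟩
  have e1 : {g | ((1 : ℝ), g) ∈ K} = B := by
    ext g
    constructor
    · rintro ⟨-, -, a, ha, b, hb, hg⟩
      simp only [sub_self, one_smul, zero_smul, zero_add] at hg
      rw [hg]; exact hb
    · intro hg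
      obtain ⟨a, ha⟩ := hAn
      exact ⟨zero_le_one, le_rfl, a, ha, g, hg, by simp⟩
  have e2 : {g | ((1 - t) • (0 : ℝ) + t • (1 : ℝ), g) ∈ K} = (1 - t) • A + t • B := by
    have e3 : (1 - t) • (0 : ℝ) + t • (1 : ℝ) = t := by simp
    rw [e3]
    ext g
    constructor
    · rintro ⟨-, -, a, ha, b, hb, hg⟩
      simp only at hg
      rw [hg]
      exact Set.add_mem_add (Set.smul_mem_smul_set ha) (Set.smul_mem_smul_set hb)
    · rintro ⟨_, ⟨a, ha, rfl⟩, _, ⟨b, hb, rfl⟩, rfl⟩
      exact ⟨ht0.le, ht1.le, a, ha, b, hb, rfl⟩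
  rw [e0, e1, e2] at h
  exact h

/-- `Phi` of a concave function is `Phi`-concave. -/
lemma phiConcave_Phi {E : Type*} [AddCommGroup E] [Module ℝ E] {V : E → ℝ}
    (hV : ConcaveOn ℝ univ V) : PhiConcave (fun x => Phi (V x)) := by
  refine ⟨fun x => (Phi_pos _).le, fun x => (Phi_lt_one _).le, fun x y t ht0 ht1 => ?_⟩
  rw [comb_mid (Phi_pos _) (Phi_lt_one _) (Phi_pos _) (Phi_lt_one _), Psi_Phi, Psi_Phi]
  refine Phi_strictMono.monotone ?_
  have := hV.2 (mem_univ x) (mem_univ y) (by linarith : (0:ℝ) ≤ 1 - t) ht0.le (by ring)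
  simpa only [smul_eq_mul] using this

/-- If `u` is `Phi`-concave with values in `(0,1)`, then `Phi⁻¹ ∘ u` is concave. -/
lemma PhiConcave.concaveOn {E : Type*} [AddCommGroup E] [Module ℝ E] {u : E → ℝ}
    (h : PhiConcave u) {D : Set E} (hD : Convex ℝ D) (h0 : ∀ x ∈ D, 0 < u x)
    (h1 : ∀ x ∈ D, u x < 1) : ConcaveOn ℝ D (fun x => Psi (u x)) := by
  refine ⟨hD, fun x hx y hy a b ha hb hab => ?_⟩
  have hmem := hD hx hy ha hb hab
  rcases hb.lt_or_eq with hb0 | rfl
  · rcases ha.lt_or_eq with ha0 | rfl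
    · have ea : a = 1 - b := by linarith
      rw [ea] at hmem ⊢
      have := h.comb_le x y b hb0 (by linarith)
      rw [comb_mid (h0 x hx) (h1 x hx) (h0 y hy) (h1 y hy)] at this
      have h2 := Psi_le_Psi (Phi_pos _) this (h1 _ hmem)
      rw [Psi_Phi] at h2
      simpa only [smul_eq_mul] using h2
    · have eb : b = 1 := by linarith
      subst eb
      simp
  · have ea : a = 1 := by linarith
    subst ea
    simp

/-- Functional Ehrhard: `x ↦ Phi⁻¹ E Phi(V(x, g))` is concave for concave `V`. -/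
theorem concaveOn_Psi_integral {E : Type*} [AddCommGroup E] [Module ℝ E] {n : ℕ}
    {V : E × (Fin n → ℝ) → ℝ} (hV : ConcaveOn ℝ univ V) :
    ConcaveOn ℝ univ (fun x => Psi (∫ g, Phi (V (x, g)) ∂(gam n))) := by
  have h := (phiConcave_Phi hV).marg n
  have hi : ∀ x, Integrable (fun g => Phi (V (x, g))) (gam n) := fun x =>
    ((phiConcave_Phi hV).slice x).integrable
  refine h.concaveOn convex_univ (fun x _ => ?_) (fun x _ => ?_)
  · refine (integral_pos_iff_support_of_nonneg (fun g => (Phi_pos _).le) (hi x)).mpr ?_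
    have : Function.support (fun g => Phi (V (x, g))) = univ := by
      ext g
      simp [Function.mem_support, (Phi_pos _).ne']
    rw [this]
    simp
  · have hi2 : Integrable (fun g => 1 - Phi (V (x, g))) (gam n) := (integrable_const _).sub (hi x)
    have h2 : 0 < ∫ g, (1 - Phi (V (x, g))) ∂(gam n) := by
      refine (integral_pos_iff_support_of_nonneg (fun g => by
        show (0 : ℝ) ≤ 1 - Phi (V (x, g)); linarith [Phi_lt_one (V (x, g))]) hi2).mpr ?_
      have : Function.support (fun g => 1 - Phi (V (x, g))) = univ := by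
        ext g
        simp only [Function.mem_support, mem_univ, iff_true]
        linarith [Phi_lt_one (V (x, g))]
      rw [this]
      simp
    rw [integral_sub (integrable_const _) (hi x)] at h2
    simp only [integral_const, smul_eq_mul, mul_one] at h2
    simp only [probReal_univ] at h2
    linarith

end Vale.Agent.P262.Ehr
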